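import Vale.Agent.Lib.P101.ZFinal

/-!
# P095: equivariant notions (fixed point algebras, equivariant copies, induced automorphisms)

The paper proof of the whole project is in `PROOF.md` (same folder).
-/

open scoped ENNReal Topology
open Filter P101

namespace P095E

universe u v

section Fix

variable {F : Type u} [CStarAlgebra F]

/-- the fixed point algebra of a set of automorphisms -/
def fixAlg (S : Set (F ≃⋆ₐ[ℂ] F)) : StarSubalgebra ℂ F where
  carrier := {x | ∀ s ∈ S, s x = x}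
  mul_mem' := fun {x y} hx hy s hs => by rw [map_mul, hx s hs, hy s hs]
  one_mem' := fun s _ => map_one s
  add_mem' := fun {x y} hx hy s hs => by rw [map_add, hx s hs, hy s hs]
  zero_mem' := fun s _ => map_zero s
  algebraMap_mem' := fun r s _ => by
    rw [Algebra.algebraMap_eq_smul_one, map_smul, map_one]
  star_mem' := fun {x} hx s hs => by rw [map_star, hx s hs]

theorem mem_fixAlg {S : Set (F ≃⋆ₐ[ℂ] F)} {x : F} : x ∈ fixAlg S ↔ ∀ s ∈ S, s x = x := Iff.rfl

theorem norm_aut (s : F ≃⋆ₐ[ℂ] F) (x : F) : ‖s x‖ = ‖x‖ :=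
  NonUnitalStarAlgHom.norm_map (s : F →⋆ₐ[ℂ] F) s.injective x

theorem isometry_aut (s : F ≃⋆ₐ[ℂ] F) : Isometry s :=
  AddMonoidHomClass.isometry_of_norm s (norm_aut s)

instance fixAlg_isClosed (S : Set (F ≃⋆ₐ[ℂ] F)) : IsClosed (fixAlg S : Set F) := by
  have h : (fixAlg S : Set F) = ⋂ s ∈ S, {x | s x = x} := by
    ext x
    simp only [Set.mem_iInter, Set.mem_ofPred_eq, SetLike.mem_coe, mem_fixAlg]
  rw [h]
  exact isClosed_biInter fun s _ => isClosed_eq (isometry_aut s).continuous continuous_id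

/-- For every closed separable `S`-invariant *-subalgebra `D` there is a sequence of unital
*-homomorphisms `θ_j : D → F` with pairwise commuting ranges that are equivariant with respect to
the automorphisms in `S`. -/
def HasEquivCopies (S : Set (F ≃⋆ₐ[ℂ] F)) : Prop :=
  ∀ D : StarSubalgebra ℂ F, IsClosed (D : Set F) → TopologicalSpace.IsSeparable (D : Set F) →
    (∀ s ∈ S, ∀ d ∈ D, s d ∈ D) →
    ∃ θ : ℕ → (D →⋆ₐ[ℂ] F), (∀ i j, i ≠ j → ∀ d e : D, Commute (θ i d) (θ j e)) ∧
      ∀ j, ∀ s ∈ S, ∀ d e : D, s (d : F) = (e : F) → s (θ j d) = θ j e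

end Fix

section Induced

variable (ω : Ultrafilter ℕ) {A : Type u} [CStarAlgebra A] [Nontrivial A]

/-- the automorphism `b` of `F_ω(A)` is induced by the automorphism `a` of `A`:
`b [y_n] = [a (y_n)]`. -/
def Induces (a : A ≃⋆ₐ[ℂ] A) (b : FOmega ω A ≃⋆ₐ[ℂ] FOmega ω A) : Prop :=
  ∀ (x : FOmega ω A) (y : lp (fun _ : ℕ => A) ∞), toUltrapower ω A y = (x : Ultrapower ω A) →
    ((b x : FOmega ω A) : Ultrapower ω A) = toUltrapower ω A (lpMap (a : A →⋆ₐ[ℂ] A) y)

end Induced

end P095E
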