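import Mathlib
import Vale.Agent.Lib.P095E.Defs
import Vale.Agent.Lib.P101.ZDescend

/-!
# P095, module E2: descent with automorphisms
-/

open scoped ENNReal Topology
open Filter P101

namespace P095E

universe u v

/-- **Equivariant version of `P101.descend`** (same proof; the additional condition is a norm
inequality for the `n`-th terms of `lpMap c v - v`, eventually along `ω`, for finitely many `c`). -/
theorem descendE (ω : Ultrafilter ℕ) {B : Type u} [CStarAlgebra B] [Nontrivial B] (X : Set B)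
    (S T : Finset B) {κ : Type v} (K : Finset κ) (c : κ → (B →⋆ₐ[ℂ] B))
    (c' : κ → (Ultrapower ω B →⋆ₐ[ℂ] Ultrapower ω B))
    (hc : ∀ k, ∀ x, c' k (toUltrapower ω B x) = toUltrapower ω B (lpMap (c k) x)) {δ : ℝ}
    {u : Ultrapower ω B} (h1 : ‖star u * u - 1‖ < δ) (h2 : ‖u * star u - 1‖ < δ)
    (h3 : ∀ b ∈ S, ‖u * ultraConst ω B b - ultraConst ω B b * u‖ < δ)
    (h4 : ∀ b ∈ T, ∃ y : lp (fun _ : ℕ => B) ∞, (∀ n, y n ∈ X) ∧
      ‖u * ultraConst ω B b * star u - toUltrapower ω B y‖ < δ)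
    (h5 : ∀ k ∈ K, ‖c' k u - u‖ < δ) :
    ∃ v : B, ‖star v * v - 1‖ < δ ∧ ‖v * star v - 1‖ < δ ∧
      (∀ b ∈ S, ‖v * b - b * v‖ < δ) ∧ (∀ b ∈ T, ∃ y ∈ X, ‖v * b * star v - y‖ < δ) ∧
      ∀ k ∈ K, ‖c k v - v‖ < δ := by
  obtain ⟨v, rfl⟩ := toUltrapower_surjective ω B u
  have hcc : ∀ b : B, ultraConst ω B b = toUltrapower ω B (constSeq B b) := fun _ => rfl
  have e1 : ∀ᶠ n in (ω : Filter ℕ), ‖star (v n) * v n - 1‖ < δ := by
    have h : ‖toUltrapower ω B (star v * v - 1)‖ < δ := by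
      rw [map_sub, map_mul, map_star, map_one]
      exact h1
    exact eventually_norm_lt ω B _ h
  have e2 : ∀ᶠ n in (ω : Filter ℕ), ‖v n * star (v n) - 1‖ < δ := by
    have h : ‖toUltrapower ω B (v * star v - 1)‖ < δ := by
      rw [map_sub, map_mul, map_star, map_one]
      exact h2
    exact eventually_norm_lt ω B _ h
  have e3 : ∀ b ∈ S, ∀ᶠ n in (ω : Filter ℕ), ‖v n * b - b * v n‖ < δ := by
    intro b hb
    have h : ‖toUltrapower ω B (v * constSeq B b - constSeq B b * v)‖ < δ := by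
      rw [map_sub, map_mul, map_mul, ← hcc]
      exact h3 b hb
    exact eventually_norm_lt ω B _ h
  choose! y hyX hy using h4
  have e4 : ∀ b ∈ T, ∀ᶠ n in (ω : Filter ℕ), ‖v n * b * star (v n) - y b n‖ < δ := by
    intro b hb
    have h : ‖toUltrapower ω B (v * constSeq B b * star v - y b)‖ < δ := by
      rw [map_sub, map_mul, map_mul, map_star, ← hcc]
      exact hy b hb
    exact eventually_norm_lt ω B _ h
  have e5 : ∀ k ∈ K, ∀ᶠ n in (ω : Filter ℕ), ‖c k (v n) - v n‖ < δ := by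
    intro k hk
    have h : ‖toUltrapower ω B (lpMap (c k) v - v)‖ < δ := by
      rw [map_sub, ← hc]
      exact h5 k hk
    exact eventually_norm_lt ω B _ h
  have e3' : ∀ᶠ n in (ω : Filter ℕ), ∀ b ∈ S, ‖v n * b - b * v n‖ < δ :=
    (Filter.eventually_all_finset S).2 e3
  have e4' : ∀ᶠ n in (ω : Filter ℕ), ∀ b ∈ T, ‖v n * b * star (v n) - y b n‖ < δ :=
    (Filter.eventually_all_finset T).2 e4
  have e5' : ∀ᶠ n in (ω : Filter ℕ), ∀ k ∈ K, ‖c k (v n) - v n‖ < δ :=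
    (Filter.eventually_all_finset K).2 e5
  obtain ⟨n, n1, n2, n3, n4, n5⟩ := (e1.and (e2.and (e3'.and (e4'.and e5')))).exists
  exact ⟨v n, n1, n2, n3, fun b hb => ⟨y b n, hyX b hb n, n4 b hb⟩, n5⟩

end P095E
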