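import Mathlib
import Vale.Agent.Lib.P095E.DescendE
import Vale.Agent.Lib.P101.ZApprox

/-!
# P095, module E3: approximately invariant absorption unitaries
-/

open scoped ENNReal Topology
open Filter P101

namespace P095E

universe u v

/-- **Equivariant version of `P101.exists_unitary_approx`** (file `Lib/P101/ZApprox.lean`, copy its
proof).  Additional argument: let `c₁ k : Ultrapower ω B → Ultrapower ω B` and
`c₂ k : Ultrapower ω (Ultrapower ω B) → …` be the maps induced by `γ k` (`exists_ultraMap`, twice).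
`c₂ k` fixes all values of the two homomorphisms `α, β : Z → Ultrapower ω (Ultrapower ω B)` of that
proof: for `α z = ultraConst (ultraConst (j z))` because `γ k (j z) = j z`; for
`β z = g1 (θ z)`: write `θ z = [y]`, `y n : FOmega ω A`; then
`c₂ k (g1 [y]) = [c₁ k (g0 (y n))] = [g0 (b k (y n))] = g1 [lpMap (b k) y] = g1 (θ z)`, where
`c₁ k (g0 x) = g0 (b k x)` for `x : FOmega ω A`: with `x = [w]`, `g0 x = [lpMap i w]`,
`c₁ k [lpMap i w] = [lpMap (γ k) (lpMap i w)] = [lpMap i (lpMap (a k) w)] = g0 (b k x)` by `Induces`.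
So `c₂ k` fixes the closed *-algebra generated by the ranges and hence the unitary `u` of it
given by `ApproxInnerHalfFlip`; use `descendE` twice instead of `descend` (with the maps
`c₁ k` and `γ k`), and for the final unitary `w` near `v`:
`‖γ k w - w‖ ≤ ‖γ k v - v‖ + 2 ‖v - w‖ < 3 δ` (take `δ ≤ ε / 3` in addition). -/
theorem exists_unitary_approxE (ω : Ultrafilter ℕ) {A Z B : Type u} [CStarAlgebra A]
    [CStarAlgebra Z] [CStarAlgebra B] [Nontrivial A] [Nontrivial B] [Nontrivial (FOmega ω A)]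
    (hZ : ApproxInnerHalfFlip Z) {κ : Type v} (a : κ → (A ≃⋆ₐ[ℂ] A))
    (b : κ → (FOmega ω A ≃⋆ₐ[ℂ] FOmega ω A)) (hab : ∀ k, Induces ω (a k) (b k))
    (θ : Z →⋆ₐ[ℂ] Ultrapower ω (FOmega ω A))
    (hθ : ∀ (k : κ) (z : Z) (y : lp (fun _ : ℕ => FOmega ω A) ∞),
      toUltrapower ω (FOmega ω A) y = θ z →
        toUltrapower ω (FOmega ω A) (lpMap (b k : FOmega ω A →⋆ₐ[ℂ] FOmega ω A) y) = θ z)
    (i : A →⋆ₐ[ℂ] B) (j : Z →⋆ₐ[ℂ] B) (hij : ∀ a z, Commute (i a) (j z))
    (γ : κ → (B ≃⋆ₐ[ℂ] B)) (hi : ∀ k x, γ k (i x) = i (a k x)) (hj : ∀ k z, γ k (j z) = j z)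
    (S : Finset A) (T : Finset Z) (K : Finset κ) {ε : ℝ} (hε : 0 < ε) :
    ∃ u ∈ unitary B, (∀ a ∈ S, ‖u * i a - i a * u‖ < ε) ∧
      (∀ z ∈ T, ∃ a : A, ‖u * j z * star u - i a‖ < ε) ∧ ∀ k ∈ K, ‖γ k u - u‖ < ε := by
  classical
  -- a bound for the norms
  obtain ⟨M, hM0, hMS, hMT⟩ : ∃ M : ℝ, 0 ≤ M ∧ (∀ a ∈ S, ‖i a‖ ≤ M) ∧ ∀ z ∈ T, ‖j z‖ ≤ M := by
    refine ⟨∑ a ∈ S, ‖i a‖ + ∑ z ∈ T, ‖j z‖, by positivity, fun a ha => ?_, fun z hz => ?_⟩
    · have := Finset.single_le_sum (f := fun a => ‖i a‖) (fun _ _ => norm_nonneg _) ha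
      have h2 : 0 ≤ ∑ z ∈ T, ‖j z‖ := by positivity
      linarith
    · have := Finset.single_le_sum (f := fun z => ‖j z‖) (fun _ _ => norm_nonneg _) hz
      have h2 : 0 ≤ ∑ a ∈ S, ‖i a‖ := by positivity
      linarith
  set δ : ℝ := min (min (1 / 2) (ε / 3)) (ε / (1 + 3 * M)) with hδdef
  have hpos : 0 < 1 + 3 * M := by linarith
  have hδ0 : 0 < δ := lt_min (lt_min (by norm_num) (by positivity)) (div_pos hε hpos)
  have hδ1 : δ ≤ 1 / 2 := (min_le_left _ _).trans (min_le_left _ _)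
  have hδ3 : δ ≤ ε / 3 := (min_le_left _ _).trans (min_le_right _ _)
  have hδε : δ * (1 + 3 * M) ≤ ε := by
    have : δ ≤ ε / (1 + 3 * M) := min_le_right _ _
    rwa [le_div_iff₀ hpos] at this
  -- the maps
  obtain ⟨gi, hgi⟩ := exists_ultraMap ω i
  let g0 : FOmega ω A →⋆ₐ[ℂ] Ultrapower ω B := gi.comp (centralSeq ω A).subtype
  obtain ⟨g1, hg1⟩ := exists_ultraMap ω g0
  choose c1 hc1 using fun k : κ => exists_ultraMap ω (γ k : B →⋆ₐ[ℂ] B)
  choose c2 hc2 using fun k : κ => exists_ultraMap ω (c1 k)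
  let α : Z →⋆ₐ[ℂ] Ultrapower ω (Ultrapower ω B) :=
    (ultraConst ω (Ultrapower ω B)).comp ((ultraConst ω B).comp j)
  let β : Z →⋆ₐ[ℂ] Ultrapower ω (Ultrapower ω B) := g1.comp θ
  have hα : ∀ z, α z = toUltrapower ω (Ultrapower ω B)
      (constSeq (Ultrapower ω B) (ultraConst ω B (j z))) := fun z => rfl
  -- representation of `β z`
  have hβ : ∀ z, ∃ f : lp (fun _ : ℕ => FOmega ω A) ∞,
      β z = toUltrapower ω (Ultrapower ω B) (lpMap g0 f) := by
    intro z
    obtain ⟨f, hf⟩ := toUltrapower_surjective ω (FOmega ω A) (θ z)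
    refine ⟨f, ?_⟩
    show g1 (θ z) = _
    rw [← hf, hg1]
  have hg0 : ∀ x : FOmega ω A, ∃ y : lp (fun _ : ℕ => A) ∞,
      g0 x = toUltrapower ω B (lpMap i y) := by
    intro x
    obtain ⟨y, hy⟩ := toUltrapower_surjective ω A (x : Ultrapower ω A)
    refine ⟨y, ?_⟩
    show gi (x : Ultrapower ω A) = _
    rw [← hy, hgi]
  have hg0j : ∀ (x : FOmega ω A) (z : Z), Commute (ultraConst ω B (j z)) (g0 x) := by
    intro x z
    obtain ⟨y, hy⟩ := hg0 x
    rw [hy, zapprox_ultraConst]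
    exact zapprox_commute ω _ _ fun n => (hij (y n) z).symm
  have hgiC : ∀ a : A, gi (ultraConst ω A a) = ultraConst ω B (i a) := by
    intro a
    rw [zapprox_ultraConst, hgi, zapprox_ultraConst]
    rfl
  have hg0i : ∀ (x : FOmega ω A) (a : A), Commute (ultraConst ω B (i a)) (g0 x) := by
    intro x a
    have hx := (StarSubalgebra.mem_centralizer_iff ℂ).1 x.2 (ultraConst ω A a) ⟨a, rfl⟩
    have h1 : Commute (ultraConst ω A a) (x : Ultrapower ω A) := hx.1
    rw [← hgiC]
    exact h1.map gi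
  have hcomm : ∀ x y, Commute (α x) (β y) := by
    intro x y
    obtain ⟨f, hf⟩ := hβ y
    rw [hf, hα]
    exact zapprox_commute ω _ _ fun n => hg0j (f n) x
  -- equivariance of `g0`
  have hcg0 : ∀ (k : κ) (x : FOmega ω A), c1 k (g0 x) = g0 (b k x) := by
    intro k x
    obtain ⟨w, hw⟩ := toUltrapower_surjective ω A (x : Ultrapower ω A)
    have h1 : g0 x = toUltrapower ω B (lpMap i w) := by
      show gi (x : Ultrapower ω A) = _
      rw [← hw, hgi]
    have h2 : g0 (b k x) = toUltrapower ω B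
        (lpMap i (lpMap (a k : A →⋆ₐ[ℂ] A) w)) := by
      show gi ((b k x : FOmega ω A) : Ultrapower ω A) = _
      rw [hab k x w hw, hgi]
    rw [h1, h2, hc1]
    congr 1
    ext n
    exact hi k (w n)
  have hc2α : ∀ (k : κ) (z : Z), c2 k (α z) = α z := by
    intro k z
    rw [hα, hc2]
    congr 1
    ext n
    show c1 k (ultraConst ω B (j z)) = ultraConst ω B (j z)
    rw [zapprox_ultraConst, hc1]
    congr 1
    ext n
    exact hj k z
  have hc2β : ∀ (k : κ) (z : Z), c2 k (β z) = β z := by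
    intro k z
    obtain ⟨y, hy⟩ := toUltrapower_surjective ω (FOmega ω A) (θ z)
    have h1 : β z = toUltrapower ω (Ultrapower ω B) (lpMap g0 y) := by
      show g1 (θ z) = _
      rw [← hy, hg1]
    have h2 : β z = toUltrapower ω (Ultrapower ω B)
        (lpMap g0 (lpMap (b k : FOmega ω A →⋆ₐ[ℂ] FOmega ω A) y)) := by
      show g1 (θ z) = _
      rw [← hθ k z y hy, hg1]
    conv_lhs => rw [h1]
    rw [h2, hc2]
    congr 1
    ext n
    exact hcg0 k (y n)
  obtain ⟨u, hu1, hu2, hu3⟩ := hZ (Ultrapower ω (Ultrapower ω B)) α β hcomm T δ hδ0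
  -- `u` is fixed
  have hufix : ∀ k : κ, c2 k u = u := by
    intro k
    have hle : (StarAlgebra.adjoin ℂ (Set.range α ∪ Set.range β)).topologicalClosure ≤
        StarAlgHom.equalizer (c2 k) (StarAlgHom.id ℂ (Ultrapower ω (Ultrapower ω B))) := by
      refine StarSubalgebra.topologicalClosure_minimal ?_ ?_
      · rw [StarAlgebra.adjoin_le_iff]
        rintro c (⟨z, rfl⟩ | ⟨z, rfl⟩)
        · exact hc2α k z
        · exact hc2β k z
      · have hcont : Continuous (c2 k) := by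
          refine (LipschitzWith.mk_one fun x y => ?_).continuous
          rw [dist_eq_norm, dist_eq_norm, ← map_sub]
          exact NonUnitalStarAlgHom.norm_apply_le (c2 k) (x - y)
        exact isClosed_eq hcont continuous_id
    exact hle hu1
  -- `u` commutes with the constants
  have huc : ∀ a : A, Commute (ultraConst ω (Ultrapower ω B) (ultraConst ω B (i a))) u := by
    intro a
    have hle : (StarAlgebra.adjoin ℂ (Set.range α ∪ Set.range β)).topologicalClosure ≤
        StarSubalgebra.centralizer ℂ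
          (Set.range fun a : A => ultraConst ω (Ultrapower ω B) (ultraConst ω B (i a))) := by
      refine StarSubalgebra.topologicalClosure_minimal ?_ ?_
      · rw [StarAlgebra.adjoin_le_iff]
        have key : ∀ (a : A) (c : Ultrapower ω (Ultrapower ω B)), c ∈ Set.range α ∪ Set.range β →
            Commute (ultraConst ω (Ultrapower ω B) (ultraConst ω B (i a))) c := by
          rintro a c (⟨z, rfl⟩ | ⟨z, rfl⟩)
          · have h1 : Commute (i a) (j z) := hij a z
            exact (h1.map (ultraConst ω B)).map (ultraConst ω (Ultrapower ω B))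
          · obtain ⟨f, hf⟩ := hβ z
            rw [hf, zapprox_ultraConst]
            exact zapprox_commute ω _ _ fun n => hg0i (f n) a
        intro c hc
        rw [SetLike.mem_coe, StarSubalgebra.mem_centralizer_iff]
        rintro _ ⟨a, rfl⟩
        refine ⟨key a c hc, ?_⟩
        have := key (star a) c hc
        rw [StarHomClass.map_star, StarHomClass.map_star, StarHomClass.map_star] at this
        exact this
      · rw [StarSubalgebra.coe_centralizer]
        exact Set.isClosed_centralizer _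
    have := (StarSubalgebra.mem_centralizer_iff ℂ).1 (hle hu1) _ ⟨a, rfl⟩
    exact this.1
  -- first descent
  obtain ⟨v1, hv1a, hv1b, hv1c, hv1d, hv1e⟩ := descendE ω (B := Ultrapower ω B)
    {c | ∃ y : lp (fun _ : ℕ => A) ∞, c = toUltrapower ω B (lpMap i y)}
    (S.image fun a => ultraConst ω B (i a)) (T.image fun z => ultraConst ω B (j z))
    K c1 c2 hc2
    (δ := δ) (u := u)
    (by rw [Unitary.star_mul_self_of_mem hu2, sub_self, norm_zero]; exact hδ0)
    (by rw [Unitary.mul_star_self_of_mem hu2, sub_self, norm_zero]; exact hδ0)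
    (by
      intro b hb
      obtain ⟨a, _, rfl⟩ := Finset.mem_image.1 hb
      rw [(huc a).eq, sub_self, norm_zero]
      exact hδ0)
    (by
      intro b hb
      obtain ⟨z, hz, rfl⟩ := Finset.mem_image.1 hb
      obtain ⟨f, hf⟩ := hβ z
      refine ⟨lpMap g0 f, fun n => hg0 (f n), ?_⟩
      rw [← hf]
      exact hu3 z hz)
    (by
      intro k _
      rw [hufix k, sub_self, norm_zero]
      exact hδ0)
  -- second descent
  obtain ⟨v, hva, hvb, hvc, hvd, hve⟩ := descendE ω (B := B) (Set.range i)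
    (S.image fun a => i a) (T.image fun z => j z) K (fun k => (γ k : B →⋆ₐ[ℂ] B)) c1 hc1
    (δ := δ) (u := v1) hv1a hv1b
    (by
      intro b hb
      obtain ⟨a, ha, rfl⟩ := Finset.mem_image.1 hb
      exact hv1c _ (Finset.mem_image.2 ⟨a, ha, rfl⟩))
    (by
      intro b hb
      obtain ⟨z, hz, rfl⟩ := Finset.mem_image.1 hb
      obtain ⟨c, ⟨y, rfl⟩, hy⟩ := hv1d _ (Finset.mem_image.2 ⟨z, hz, rfl⟩)
      exact ⟨lpMap i y, fun n => ⟨y n, rfl⟩, hy⟩)
    hv1e
  obtain ⟨w, hw, hvw⟩ := exists_unitary_near hδ1 hva hvb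
  refine ⟨w, hw, fun a ha => ?_, fun z hz => ?_, fun k hk => ?_⟩
  · exact (zapprox_est' hδ0 hM0 hvw (hMS a ha) (hvc _ (Finset.mem_image.2 ⟨a, ha, rfl⟩))).trans_le
      hδε
  · obtain ⟨_, ⟨a, rfl⟩, hy⟩ := hvd _ (Finset.mem_image.2 ⟨z, hz, rfl⟩)
    exact ⟨a, (zapprox_est hδ0 hδ1 hM0 hw hvw (hMT z hz) hy).trans_le hδε⟩
  · have h1 : ‖γ k v - v‖ < δ := hve k hk
    have h2 : ‖γ k (v - w)‖ ≤ δ := by rw [norm_aut]; exact hvw
    have e : γ k w - w = (γ k v - v) + ((v - w) - γ k (v - w)) := by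
      rw [map_sub]
      abel
    calc ‖γ k w - w‖ ≤ ‖γ k v - v‖ + ‖(v - w) - γ k (v - w)‖ := by
          rw [e]
          exact norm_add_le _ _
      _ ≤ ‖γ k v - v‖ + (‖v - w‖ + ‖γ k (v - w)‖) := add_le_add_right (norm_sub_le _ _) _
      _ < ε := by linarith

end P095E
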