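import Mathlib
import Vale.Agent.Lib.P095E.Defs

/-!
# P095, module E4b: the cocycle
-/

open scoped ENNReal Topology
open Filter P101

namespace P095E

universe u v

/-- **Module E4b.**  The cocycle.

Proof.  `w_n(g) = v_n γ_g(v_n)*`.  With `c_n = v_n* v_{n+1}` (unitary):
`w_{n+1}(g) - w_n(g) = v_n (c_n γ_g(c_n)* - 1) γ_g(v_n)*` has norm `‖γ_g(c_n) - c_n‖ ≤ 2^{-n}` for
`n ≥ N`, so `w_n(g)` is Cauchy; its limit `w(g)` is unitary.
`w_n(g h) = v_n γ_g(v_n)* γ_g(v_n γ_h(v_n)*) = w_n(g) γ_g(w_n(h))`; pass to the limit.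
`v_n i(α_g x) v_n* = v_n γ_g(i x) v_n* = w_n(g) γ_g(v_n i(x) v_n*) w_n(g)*`; pass to the limit. -/
theorem exists_cocycle {A B : Type u} [CStarAlgebra A] [CStarAlgebra B] (i : A →⋆ₐ[ℂ] B)
    {G : Type v} [Group G] (α : G →* (A ≃⋆ₐ[ℂ] A)) (γ : G →* (B ≃⋆ₐ[ℂ] B))
    (hγ : ∀ g x, γ g (i x) = i (α g x)) (v : ℕ → unitary B) (Φ : A ≃⋆ₐ[ℂ] B)
    (h1 : ∀ x, Tendsto (fun n => (v n : B) * i x * star (v n : B)) atTop (𝓝 (Φ x)))
    (h2 : ∀ g, ∃ N, ∀ n, N ≤ n →
      ‖γ g (star (v n : B) * v (n + 1)) - star (v n : B) * v (n + 1)‖ ≤ (1 / 2 : ℝ) ^ n) :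
    ∃ w : G → unitary B, (∀ g h, (w (g * h) : B) = w g * γ g (w h : B)) ∧
      ∀ g a, Φ (α g a) = w g * γ g (Φ a) * star (w g : B) := by
  have hs : ∀ n, star (v n : B) * (v n : B) = 1 := fun n => Unitary.coe_star_mul_self (v n)
  have hs' : ∀ n, (v n : B) * star (v n : B) = 1 := fun n => Unitary.coe_mul_star_self (v n)
  have hcont : ∀ g, Continuous (γ g) := fun g => (isometry_aut (γ g)).continuous
  -- the approximate cocycles
  let W : ℕ → G → B := fun n g => (v n : B) * γ g (star (v n : B))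
  have hW : ∀ n g, W n g = (v n : B) * γ g (star (v n : B)) := fun _ _ => rfl
  have hWs : ∀ n g, star (W n g) = γ g (v n : B) * star (v n : B) := by
    intro n g
    rw [hW, star_mul, ← map_star, star_star]
  have hWW : ∀ n g, W n g * star (W n g) = 1 := by
    intro n g
    rw [hWs, hW, mul_assoc, ← mul_assoc (γ g (star (v n : B))), ← map_mul, hs, map_one, one_mul,
      hs']
  have hWW' : ∀ n g, star (W n g) * W n g = 1 := by
    intro n g
    rw [hWs, hW, mul_assoc, ← mul_assoc (star (v n : B)), hs, one_mul, ← map_mul, hs', map_one]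
  have hdiff : ∀ n g, ‖W (n + 1) g - W n g‖ ≤
      ‖γ g (star (v n : B) * v (n + 1)) - star (v n : B) * v (n + 1)‖ := by
    intro n g
    set c : B := star (v n : B) * v (n + 1) with hc
    have hcu : c ∈ unitary B := by
      rw [hc]
      exact mul_mem (Unitary.star_mem (v n).2) (v (n + 1)).2
    have hgu : γ g c ∈ unitary B := by
      rw [Unitary.mem_iff] at hcu ⊢
      rw [← map_star, ← map_mul, ← map_mul, hcu.1, hcu.2, map_one]
      exact ⟨rfl, rfl⟩
    have hv : (v (n + 1) : B) = v n * c := by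
      rw [hc, ← mul_assoc, hs', one_mul]
    have e : W (n + 1) g - W n g =
        (v n : B) * ((c - γ g c) * star (γ g c)) * γ g (star (v n : B)) := by
      have h3 : γ g c * star (γ g c) = 1 := (Unitary.mem_iff.1 hgu).2
      rw [hW, hW, hv, star_mul, map_mul, sub_mul, h3, mul_sub, sub_mul, mul_one, ← map_star]
      simp only [mul_assoc]
    have hvu : γ g (star (v n : B)) ∈ unitary B := by
      rw [Unitary.mem_iff, ← map_star, ← map_mul, ← map_mul, star_star, hs, hs', map_one]
      exact ⟨rfl, rfl⟩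
    rw [e, CStarRing.norm_mul_mem_unitary _ hvu, CStarRing.norm_mem_unitary_mul _ (v n).2,
      CStarRing.norm_mul_mem_unitary _ (Unitary.star_mem hgu), norm_sub_rev]
  have hlim : ∀ g, ∃ w : B, Tendsto (fun n => W n g) atTop (𝓝 w) := by
    intro g
    obtain ⟨N, hN⟩ := h2 g
    have hC : CauchySeq (fun n => W (n + N) g) := by
      refine cauchySeq_of_le_geometric (1 / 2 : ℝ) 1 (by norm_num) fun n => ?_
      rw [dist_eq_norm, norm_sub_rev, one_mul, show n + 1 + N = n + N + 1 by omega]
      refine (hdiff (n + N) g).trans ((hN (n + N) (Nat.le_add_left N n)).trans ?_)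
      exact pow_le_pow_of_le_one (by norm_num) (by norm_num) (Nat.le_add_right n N)
    obtain ⟨w, hw⟩ := cauchySeq_tendsto_of_complete hC
    exact ⟨w, (tendsto_add_atTop_iff_nat N).1 hw⟩
  choose w hw using hlim
  have hwu : ∀ g, w g ∈ unitary B := by
    intro g
    have e1 := (hw g).star.mul (hw g)
    have e2 := (hw g).mul (hw g).star
    simp only [hWW'] at e1
    simp only [hWW] at e2
    rw [Unitary.mem_iff]
    exact ⟨(tendsto_nhds_unique e1 tendsto_const_nhds), (tendsto_nhds_unique e2 tendsto_const_nhds)⟩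
  refine ⟨fun g => ⟨w g, hwu g⟩, ?_, ?_⟩
  · intro g h
    have e1 : ∀ n, W n (g * h) = W n g * γ g (W n h) := by
      intro n
      have e0 : γ (g * h) (star (v n : B)) = γ g (γ h (star (v n : B))) := by
        rw [map_mul]
        rfl
      rw [hW, hW, hW, map_mul (γ g), e0, mul_assoc, ← mul_assoc (γ g (star (v n : B))), ← map_mul,
        hs, map_one, one_mul]
    have e2 : Tendsto (fun n => W n (g * h)) atTop (𝓝 (w g * γ g (w h))) := by
      simp only [e1]
      exact (hw g).mul (((hcont g).tendsto _).comp (hw h))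
    exact tendsto_nhds_unique (hw (g * h)) e2
  · intro g a
    have e1 : ∀ n, (v n : B) * i (α g a) * star (v n : B) =
        W n g * γ g ((v n : B) * i a * star (v n : B)) * star (W n g) := by
      intro n
      rw [← hγ, hWs, hW, map_mul, map_mul]
      have e3 : γ g (star (v n : B)) * γ g (v n : B) = 1 := by rw [← map_mul, hs, map_one]
      calc (v n : B) * γ g (i a) * star (v n : B)
          = (v n : B) * 1 * γ g (i a) * 1 * star (v n : B) := by rw [mul_one, mul_one]
        _ = (v n : B) * (γ g (star (v n : B)) * γ g (v n : B)) * γ g (i a) *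
              (γ g (star (v n : B)) * γ g (v n : B)) * star (v n : B) := by rw [e3]
        _ = _ := by simp only [mul_assoc]
    have e2 : Tendsto (fun n => (v n : B) * i (α g a) * star (v n : B)) atTop
        (𝓝 (w g * γ g (Φ a) * star (w g))) := by
      simp only [e1]
      exact ((hw g).mul (((hcont g).tendsto _).comp (h1 a))).mul (hw g).star
    exact tendsto_nhds_unique (h1 (α g a)) e2

end P095E
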