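import Mathlib
import Vale.Agent.Lib.P095E.Defs
import Vale.Agent.Lib.P101.Corestrict

/-!
# P095, modules A8: commutator relation, invariant subalgebras, restriction of the action
-/

open scoped Topology
open Filter P101

namespace P095E

universe u v

variable {F : Type u} [CStarAlgebra F]

/-- **Module A8b.**  A countable set is contained in a closed separable *-subalgebra invariant
under a countable set of automorphisms closed under composition.  Proof:
`P101.exists_closed_separable` for the countable set `⋃_g β_g(T)`; more precisely take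
`D = (StarAlgebra.adjoin ℂ (⋃_g β_g(T))).topologicalClosure` (its separability is proved there;
reprove or use the proof) and check that it is invariant: `β_g` maps the generating set into itself,
hence `adjoin` into itself (`StarAlgebra.adjoin_le`, `StarSubalgebra.comap`/`map`), hence its
closure (continuity, `isometry_aut`). -/
theorem exists_invariant_subalgebra {G : Type v} [Group G] [Countable G]
    (β : G →* (F ≃⋆ₐ[ℂ] F)) (T : Set F) (hT : T.Countable) :
    ∃ D : StarSubalgebra ℂ F, IsClosed (D : Set F) ∧
      TopologicalSpace.IsSeparable (D : Set F) ∧ T ⊆ (D : Set F) ∧ ∀ g, ∀ d ∈ D, β g d ∈ D := by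
  obtain ⟨U, hU⟩ : ∃ U : Set F, U = ⋃ g : G, (fun x => β g x) '' T := ⟨_, rfl⟩
  have hUc : U.Countable := by
    rw [hU]
    exact Set.countable_iUnion fun g => hT.image _
  have hTU : T ⊆ U := by
    intro x hx
    rw [hU]
    refine Set.mem_iUnion.2 ⟨1, x, hx, ?_⟩
    simp only [map_one, StarAlgEquiv.one_apply]
  have hinv : ∀ g, ∀ x ∈ U, β g x ∈ U := by
    intro g x hx
    rw [hU] at hx ⊢
    obtain ⟨h, y, hy, rfl⟩ := Set.mem_iUnion.1 hx
    refine Set.mem_iUnion.2 ⟨g * h, y, hy, ?_⟩
    simp only [map_mul, StarAlgEquiv.mul_apply]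
  refine ⟨(StarAlgebra.adjoin ℂ U).topologicalClosure,
    StarSubalgebra.isClosed_topologicalClosure _, ?_, ?_, ?_⟩
  · rw [StarSubalgebra.topologicalClosure_coe]
    apply TopologicalSpace.IsSeparable.closure
    have h : ((StarAlgebra.adjoin ℂ U : StarSubalgebra ℂ F) : Set F) =
        (Submodule.span ℂ (Submonoid.closure (U ∪ star U) : Set F) : Set F) := by
      rw [← Algebra.adjoin_eq_span]
      rfl
    rw [h]
    apply TopologicalSpace.IsSeparable.span
    apply Set.Countable.isSeparable
    apply corestrict_countable_closure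
    exact hUc.union (by simpa using hUc.image star)
  · exact hTU.trans ((StarAlgebra.subset_adjoin ℂ U).trans
      (StarSubalgebra.le_topologicalClosure _))
  · intro g d hd
    have h1 : StarAlgebra.adjoin ℂ U ≤
        (StarAlgebra.adjoin ℂ U).comap ((β g : F ≃⋆ₐ[ℂ] F) : F →⋆ₐ[ℂ] F) := by
      refine StarAlgebra.adjoin_le fun x hx => ?_
      exact StarAlgebra.subset_adjoin ℂ U (hinv g x hx)
    have h2 : d ∈ closure ((StarAlgebra.adjoin ℂ U : StarSubalgebra ℂ F) : Set F) := by
      rw [← StarSubalgebra.topologicalClosure_coe]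
      exact hd
    have h3 : β g d ∈ closure ((StarAlgebra.adjoin ℂ U : StarSubalgebra ℂ F) : Set F) :=
      map_mem_closure (isometry_aut (β g)).continuous h2 fun x hx => h1 hx
    rw [← StarSubalgebra.topologicalClosure_coe] at h3
    exact h3

/-- **Module A8c.**  Restriction of an action to an invariant *-subalgebra. -/
theorem exists_restrict {G : Type v} [Group G] (β : G →* (F ≃⋆ₐ[ℂ] F)) (D : StarSubalgebra ℂ F)
    (hD : ∀ g, ∀ d ∈ D, β g d ∈ D) :
    ∃ δ : G →* (D ≃⋆ₐ[ℂ] D), ∀ g (d : D), ((δ g d : D) : F) = β g d := by
  have hinv1 : ∀ g (x : F), β g⁻¹ (β g x) = x := by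
    intro g x
    rw [← StarAlgEquiv.mul_apply, ← map_mul, inv_mul_cancel, map_one, StarAlgEquiv.one_apply]
  have hinv2 : ∀ g (x : F), β g (β g⁻¹ x) = x := by
    intro g x
    rw [← StarAlgEquiv.mul_apply, ← map_mul, mul_inv_cancel, map_one, StarAlgEquiv.one_apply]
  refine ⟨{ toFun := fun g =>
              { toFun := fun d => ⟨β g d, hD g d d.2⟩
                invFun := fun d => ⟨β g⁻¹ d, hD g⁻¹ d d.2⟩
                left_inv := fun d => Subtype.ext (hinv1 g d)
                right_inv := fun d => Subtype.ext (hinv2 g d)
                map_mul' := fun x y => Subtype.ext (map_mul (β g) (x : F) y)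
                map_add' := fun x y => Subtype.ext (map_add (β g) (x : F) y)
                map_star' := fun x => Subtype.ext (map_star (β g) (x : F))
                map_smul' := fun r x => Subtype.ext (map_smul (β g) r (x : F)) }
            map_one' := ?_
            map_mul' := ?_ }, ?_⟩
  · ext d
    change β 1 (d : F) = d
    rw [map_one, StarAlgEquiv.one_apply]
  · intro g h
    ext d
    change β (g * h) (d : F) = β g (β h d)
    rw [map_mul, StarAlgEquiv.mul_apply]
  · intro g d
    rfl

end P095E
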