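import Mathlib
import Vale.Agent.Lib.P095E.Defs
import Vale.Agent.Lib.P101.SimpleQ
import Vale.Agent.Lib.P101.Corestrict

/-!
# P095, module A8a: the commutator relation
-/

open scoped Topology
open Filter P101

namespace P095E

universe u v

variable {F : Type u} [CStarAlgebra F]

/-- **Module A8a.**  If `F` has no characters then `1` is in the algebraic ideal generated by the
commutators.  Proof: otherwise `P101.exists_simple_quotient` gives `π : F → Q` onto a nontrivial
algebraically simple C*-algebra killing all commutators; so `Q` is commutative and every nonzero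
element is invertible (`AlgSimple`), hence `Q = ℂ` by Gelfand-Mazur
(`NormedRing.algEquivComplexOfComplete` or `spectrum.nonempty`), the inverse of
`algebraMap ℂ Q` composed with `π` is a character (it is star-preserving since `algebraMap` is). -/
theorem inIdeal_commutator (h : IsEmpty (F →⋆ₐ[ℂ] ℂ)) :
    InIdeal {c : F | ∃ x y : F, c = x * y - y * x} (1 : F) := by
  by_contra hn
  obtain ⟨Q, hQ, π, hnt, hsurj, hkill, hsimple⟩ := exists_simple_quotient _ hn
  have hcomm : ∀ p q : Q, p * q = q * p := by
    intro p q
    obtain ⟨x, rfl⟩ := hsurj p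
    obtain ⟨y, rfl⟩ := hsurj q
    have := hkill (x * y - y * x) ⟨x, y, rfl⟩
    rw [map_sub, map_mul, map_mul] at this
    exact sub_eq_zero.1 this
  have hunit : ∀ {q : Q}, IsUnit q ↔ q ≠ 0 := by
    intro q
    refine ⟨fun h => h.ne_zero, fun hq => ?_⟩
    obtain ⟨n, a, z, b, hz, h1⟩ := hsimple q hq
    have h2 : q * ∑ l, a l * b l = 1 := by
      rw [h1, Finset.mul_sum]
      refine Finset.sum_congr rfl fun l _ => ?_
      rw [Set.mem_singleton_iff.1 (hz l), ← mul_assoc, hcomm q (a l)]
    exact ⟨⟨q, ∑ l, a l * b l, h2, by rw [hcomm, h2]⟩, rfl⟩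
  let e : ℂ ≃ₐ[ℂ] Q := NormedRing.algEquivComplexOfComplete hunit
  have he : ∀ c : ℂ, e c = algebraMap ℂ Q c := fun c => rfl
  have hstar : ∀ q : Q, e.symm (star q) = star (e.symm q) := by
    intro q
    rw [AlgEquiv.symm_apply_eq, he, algebraMap_star_comm, ← he, AlgEquiv.apply_symm_apply]
  exact h.false
    { (e.symm : Q →ₐ[ℂ] ℂ).comp (π : F →ₐ[ℂ] Q) with
      map_star' := fun x => by
        change e.symm (π (star x)) = star (e.symm (π x))
        rw [map_star, hstar] }

end P095E
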