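import Vale.Agent.Lib.P095E.Defs

/-!
# P095, module B2: one equivariant commuting copy
-/

open scoped ENNReal Topology
open Filter P101

namespace P095E

universe u v

/-- **Equivariant version of `P101.exists_hom_commuting`** (file `Lib/P101/CopiesB.lean`; copy its
proof).  In addition to the families used there put into the controlled family `X` of
`P101.exists_reindex` all the sequences `lpMap (α i) (s k) - s j` (index `(i, k, j) : κ × ℕ × ℕ`).
The reindexing `R` commutes with `lpMap (α i)` (both are termwise: `rfl` or `ext`), so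
`‖b i (θ₀ k) - θ₀ j‖ = ‖[R (lpMap (α i) (s k) - s j)]‖ ≤ ‖[lpMap (α i) (s k) - s j]‖
= ‖b i (d k) - d j‖` (`Induces` applied to `θ₀ k` with the sequence `R (s k)`, and to `d k` with
`s k`).  Let `d, e : D` with `b i d = e`; choose `d k` near `d` and `d j` near `e`: then
`‖b i (θ d) - θ e‖ ≤ ‖d - d k‖ + ‖b i (d k) - d j‖ + ‖d j - e‖ ≤ small`
(`θ`, `b i` are contractive, `‖b i (d k) - d j‖ ≤ ‖d k - d‖ + ‖e - d j‖`).

(`κ` is in `Type` so that `κ × ℕ × ℕ` can be used as an index type for `P101.exists_reindex`.) -/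
theorem exists_hom_commutingE (ω : Ultrafilter ℕ) (hω : (ω : Filter ℕ) ≤ Filter.cofinite)
    (A : Type u) [CStarAlgebra A] [Nontrivial A] [TopologicalSpace.SeparableSpace A]
    {κ : Type} [Countable κ] (α : κ → (A ≃⋆ₐ[ℂ] A))
    (b : κ → (FOmega ω A ≃⋆ₐ[ℂ] FOmega ω A)) (hb : ∀ i, Induces ω (α i) (b i))
    (D : StarSubalgebra ℂ (FOmega ω A)) (hcl : IsClosed (D : Set (FOmega ω A)))
    (hsep : TopologicalSpace.IsSeparable (D : Set (FOmega ω A))) (C : Set (FOmega ω A))
    (hC : TopologicalSpace.IsSeparable C) :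
    ∃ θ : D →⋆ₐ[ℂ] FOmega ω A, (∀ (d : D), ∀ c ∈ C, Commute (θ d) c) ∧
      ∀ (i : κ) (d e : D), b i (d : FOmega ω A) = (e : FOmega ω A) → b i (θ d) = θ e := by
  have : IsClosed (D : Set (FOmega ω A)) := hcl
  have : TopologicalSpace.SeparableSpace D := hsep.separableSpace
  obtain ⟨cc, hcc, hCc⟩ := hC
  obtain ⟨c, hc⟩ : ∃ c : ℕ → FOmega ω A, insert 0 cc = Set.range c :=
    (hcc.insert 0).exists_eq_range (Set.insert_nonempty 0 cc)
  have hCc' : C ⊆ closure (Set.range c) := by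
    rw [← hc]
    exact hCc.trans (closure_mono (Set.subset_insert 0 cc))
  set d : ℕ → D := TopologicalSpace.denseSeq D with hddef
  have hd : DenseRange d := TopologicalSpace.denseRange_denseSeq D
  set z : ℕ → ℂ := TopologicalSpace.denseSeq ℂ with hzdef
  have hz : DenseRange z := TopologicalSpace.denseRange_denseSeq ℂ
  have hsurj : Function.Surjective (toUltrapower ω A) := quotMk_surjective (cNull ω A)
  choose s hs using fun k : ℕ => hsurj ((d k : FOmega ω A) : Ultrapower ω A)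
  choose t ht using fun l : ℕ => hsurj ((c l : FOmega ω A) : Ultrapower ω A)
  let X := Sum.elim (fun p : ℕ × ℕ × ℕ => s p.1 + s p.2.1 - s p.2.2)
    (Sum.elim (fun p : ℕ × ℕ × ℕ => s p.1 * s p.2.1 - s p.2.2)
    (Sum.elim (fun p : ℕ × ℕ => star (s p.1) - s p.2)
    (Sum.elim (fun p : ℕ × ℕ × ℕ => z p.1 • s p.2.1 - s p.2.2)
    (Sum.elim (fun p : ℕ × ℕ => s p.1 - s p.2)
    (Sum.elim (fun p : ℕ => s p - 1)
      (fun p : κ × ℕ × ℕ => lpMap (α p.1 : A →⋆ₐ[ℂ] A) (s p.2.1) - s p.2.2))))))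
  obtain ⟨m, hm1, hm2, hm3⟩ := exists_reindex ω A hω X s t (fun k => by
    rw [hs k]; exact (d k : FOmega ω A).2)
  let R := reindex A m
  let θ₀ : ℕ → FOmega ω A := fun k => ⟨toUltrapower ω A (R (s k)), hm2 k⟩
  have hadd : ∀ k l j, ‖θ₀ k + θ₀ l - θ₀ j‖ ≤ ‖d k + d l - d j‖ := by
    intro k l j
    have h1 := hm1 (Sum.inl (k, l, j))
    simp only [X, Sum.elim_inl, map_add, map_sub, hs] at h1
    exact h1
  have hmul : ∀ k l j, ‖θ₀ k * θ₀ l - θ₀ j‖ ≤ ‖d k * d l - d j‖ := by
    intro k l j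
    have h1 := hm1 (Sum.inr (Sum.inl (k, l, j)))
    simp only [X, Sum.elim_inl, Sum.elim_inr, map_mul, map_sub, hs] at h1
    exact h1
  have hstar : ∀ k j, ‖star (θ₀ k) - θ₀ j‖ ≤ ‖star (d k) - d j‖ := by
    intro k j
    have h1 := hm1 (Sum.inr (Sum.inr (Sum.inl (k, j))))
    simp only [X, Sum.elim_inl, Sum.elim_inr, map_star, map_sub, hs] at h1
    exact h1
  have hsmul : ∀ i k j, ‖z i • θ₀ k - θ₀ j‖ ≤ ‖z i • d k - d j‖ := by
    intro i k j
    have h1 := hm1 (Sum.inr (Sum.inr (Sum.inr (Sum.inl (i, k, j)))))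
    simp only [X, Sum.elim_inl, Sum.elim_inr, map_smul, map_sub, hs] at h1
    exact h1
  have hsub : ∀ k l, ‖θ₀ k - θ₀ l‖ ≤ ‖d k - d l‖ := by
    intro k l
    have h1 := hm1 (Sum.inr (Sum.inr (Sum.inr (Sum.inr (Sum.inl (k, l))))))
    simp only [X, Sum.elim_inl, Sum.elim_inr, map_sub, hs] at h1
    exact h1
  have hone : ∀ k, ‖θ₀ k - 1‖ ≤ ‖d k - 1‖ := by
    intro k
    have h1 := hm1 (Sum.inr (Sum.inr (Sum.inr (Sum.inr (Sum.inr (Sum.inl k))))))
    simp only [X, Sum.elim_inl, Sum.elim_inr, map_sub, map_one, hs] at h1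
    exact h1
  have hequiv : ∀ i k j, ‖b i (θ₀ k) - θ₀ j‖ ≤ ‖b i (d k : FOmega ω A) - d j‖ := by
    intro i k j
    have h1 := hm1 (Sum.inr (Sum.inr (Sum.inr (Sum.inr (Sum.inr (Sum.inr (i, k, j)))))))
    simp only [X, Sum.elim_inr, map_sub, hs] at h1
    have h2 : ((b i (θ₀ k) : FOmega ω A) : Ultrapower ω A) =
        toUltrapower ω A (reindex A m (lpMap (α i : A →⋆ₐ[ℂ] A) (s k))) :=
      hb i (θ₀ k) (R (s k)) rfl
    have h3 : ((b i (d k : FOmega ω A) : FOmega ω A) : Ultrapower ω A) =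
        toUltrapower ω A (lpMap (α i : A →⋆ₐ[ℂ] A) (s k)) :=
      hb i (d k : FOmega ω A) (s k) (hs k)
    rw [← h2, ← h3] at h1
    exact h1
  obtain ⟨θ, hθc, hθ⟩ := exists_starHom_of_dense (D := D) (F := FOmega ω A) d hd z hz θ₀
    hadd hmul hstar hsmul hsub hone
  have hcomm : ∀ k l, Commute (θ₀ k) (c l) := by
    intro k l
    have h1 := hm3 k l
    rw [ht l] at h1
    exact Subtype.ext h1
  refine ⟨θ, ?_, ?_⟩
  · intro x y hy
    have h2 : ∀ l, Commute (θ x) (c l) := by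
      intro l
      refine hd.induction_on (p := fun x => Commute (θ x) (c l)) x ?_ ?_
      · exact isClosed_eq (by fun_prop) (by fun_prop)
      · intro k
        rw [hθ k]
        exact hcomm k l
    have h3 : IsClosed {y : FOmega ω A | Commute (θ x) y} :=
      isClosed_eq (by fun_prop) (by fun_prop)
    have h4 : Set.range c ⊆ {y : FOmega ω A | Commute (θ x) y} := by
      rintro _ ⟨l, rfl⟩
      exact h2 l
    exact (closure_minimal h4 h3) (hCc' hy)
  · intro i x y hxy
    have hbc : Continuous (b i) := (isometry_aut (b i)).continuous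
    have h1 : ∀ x y : D, ‖b i (θ x) - θ y‖ ≤ ‖b i (x : FOmega ω A) - y‖ := by
      intro x y
      refine hd.induction_on₂ (p := fun x y : D =>
        ‖b i (θ x) - θ y‖ ≤ ‖b i (x : FOmega ω A) - y‖) ?_ ?_ x y
      · exact isClosed_le
          (((hbc.comp (hθc.comp continuous_fst)).sub (hθc.comp continuous_snd)).norm)
          (((hbc.comp (continuous_subtype_val.comp continuous_fst)).sub
            (continuous_subtype_val.comp continuous_snd)).norm)
      · intro k l
        rw [hθ k, hθ l]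
        exact hequiv i k l
    have h2 := h1 x y
    rw [hxy, sub_self, norm_zero] at h2
    exact sub_eq_zero.1 (norm_le_zero_iff.1 h2)

end P095E
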