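import Vale.Agent.Lib.P095E.Defs
import Vale.Agent.Lib.P101.Transfer

/-!
# P095, modules B1: induced automorphisms of the central sequence algebra
-/

open scoped ENNReal Topology
open Filter P101

namespace P095E

universe u v

variable (ω : Ultrafilter ℕ) {A : Type u} [CStarAlgebra A] [Nontrivial A]

/-- the map of the ultrapower induced by an automorphism -/
private noncomputable def indU (a : A ≃⋆ₐ[ℂ] A) : Ultrapower ω A →⋆ₐ[ℂ] Ultrapower ω A :=
  Classical.choose (exists_ultraMap ω (a : A →⋆ₐ[ℂ] A))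

private theorem indU_apply (a : A ≃⋆ₐ[ℂ] A) (y : lp (fun _ : ℕ => A) ∞) :
    indU ω a (toUltrapower ω A y) = toUltrapower ω A (lpMap (a : A →⋆ₐ[ℂ] A) y) :=
  Classical.choose_spec (exists_ultraMap ω (a : A →⋆ₐ[ℂ] A)) y

private theorem indU_mul (a b : A ≃⋆ₐ[ℂ] A) (x : Ultrapower ω A) :
    indU ω (a * b) x = indU ω a (indU ω b x) := by
  obtain ⟨y, rfl⟩ := toUltrapower_surjective ω A x
  rw [indU_apply, indU_apply, indU_apply]
  congr 1

private theorem indU_one (x : Ultrapower ω A) : indU ω (1 : A ≃⋆ₐ[ℂ] A) x = x := by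
  obtain ⟨y, rfl⟩ := toUltrapower_surjective ω A x
  rw [indU_apply]
  congr 1

private theorem indU_const (a : A ≃⋆ₐ[ℂ] A) (c : A) :
    indU ω a (toUltrapower ω A (constSeq A c)) = toUltrapower ω A (constSeq A (a c)) := by
  rw [indU_apply]
  congr 1

private theorem indU_mem (a : A ≃⋆ₐ[ℂ] A) {x : Ultrapower ω A} (hx : x ∈ centralSeq ω A) :
    indU ω a x ∈ centralSeq ω A := by
  rw [mem_centralSeq]
  intro c
  have h1 := mem_centralSeq.1 hx (a⁻¹ c)
  have h2 := congrArg (indU ω a) h1
  have h3 : a (a⁻¹ c) = c := by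
    rw [← StarAlgEquiv.mul_apply, mul_inv_cancel, StarAlgEquiv.one_apply]
  rw [map_mul, map_mul, indU_const, h3] at h2
  exact h2

/-- its restriction to the central sequence algebra -/
private noncomputable def indC (a : A ≃⋆ₐ[ℂ] A) : FOmega ω A →⋆ₐ[ℂ] FOmega ω A :=
  StarAlgHom.codRestrict ((indU ω a).comp (centralSeq ω A).subtype) (centralSeq ω A)
    (fun x => indU_mem ω a x.2)

private theorem indC_coe (a : A ≃⋆ₐ[ℂ] A) (x : FOmega ω A) :
    ((indC ω a x : FOmega ω A) : Ultrapower ω A) = indU ω a (x : Ultrapower ω A) := rfl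

private theorem indC_mul (a b : A ≃⋆ₐ[ℂ] A) (x : FOmega ω A) :
    indC ω (a * b) x = indC ω a (indC ω b x) := by
  apply Subtype.ext
  rw [indC_coe, indC_coe, indC_coe, indU_mul]

private theorem indC_one (x : FOmega ω A) : indC ω (1 : A ≃⋆ₐ[ℂ] A) x = x := by
  apply Subtype.ext
  rw [indC_coe, indU_one]

/-- the induced automorphism -/
private noncomputable def indE (a : A ≃⋆ₐ[ℂ] A) : FOmega ω A ≃⋆ₐ[ℂ] FOmega ω A :=
  StarAlgEquiv.ofStarAlgHom (indC ω a) (indC ω a⁻¹)
    (by
      ext x : 1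
      show indC ω a⁻¹ (indC ω a x) = x
      rw [← indC_mul, inv_mul_cancel, indC_one])
    (by
      ext x : 1
      show indC ω a (indC ω a⁻¹ x) = x
      rw [← indC_mul, mul_inv_cancel, indC_one])

private theorem indE_apply (a : A ≃⋆ₐ[ℂ] A) (x : FOmega ω A) : indE ω a x = indC ω a x := rfl

/-- **Module B1a.**  An action on `A` induces an action on `F_ω(A)`.

Proof.  For an automorphism `a` let `u(a) : Ultrapower ω A →⋆ₐ Ultrapower ω A` be the map of
`exists_ultraMap`, `u(a) [y] = [lpMap a y]`; it is determined by this formula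
(`toUltrapower_surjective`), so `u(a b) = u(a) ∘ u(b)`, `u(1) = id`.  It maps `centralSeq ω A` into
itself: `x` commutes with all classes of constants iff `u(a) x` commutes with all
`u(a) [const c] = [const (a c)]`, and `a` is onto (use `P101.mem_centralSeq`).  Restrict to get
`b(a) : FOmega ω A →⋆ₐ FOmega ω A` with inverse `b(a⁻¹)`; functoriality gives the group
homomorphism. -/
theorem exists_induced_action {G : Type v} [Group G] (α : G →* (A ≃⋆ₐ[ℂ] A)) :
    ∃ β : G →* (FOmega ω A ≃⋆ₐ[ℂ] FOmega ω A), ∀ g, Induces ω (α g) (β g) := by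
  refine ⟨{ toFun := fun g => indE ω (α g), map_one' := ?_, map_mul' := ?_ }, ?_⟩
  · ext x : 1
    rw [indE_apply, map_one, indC_one, StarAlgEquiv.one_apply]
  · intro g h
    ext x : 1
    rw [StarAlgEquiv.mul_apply, indE_apply, indE_apply, indE_apply, map_mul, indC_mul]
  · intro g x y hxy
    show ((indE ω (α g) x : FOmega ω A) : Ultrapower ω A) = _
    rw [indE_apply, indC_coe, ← hxy, indU_apply]

variable {ω}

/-- The induced automorphism is unique (every element of the ultrapower is a class). -/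
theorem Induces.unique {a : A ≃⋆ₐ[ℂ] A} {b b' : FOmega ω A ≃⋆ₐ[ℂ] FOmega ω A}
    (h : Induces ω a b) (h' : Induces ω a b') : b = b' := by
  ext x : 1
  obtain ⟨y, hy⟩ := toUltrapower_surjective ω A (x : Ultrapower ω A)
  apply Subtype.ext
  rw [h x y hy, h' x y hy]

/-- **Module B1b.**  Inner perturbations induce the same automorphism: if `[y_n]` is central then so
is `[a' y_n]` (it is `b [y_n]`), hence `[v (a' y_n) v*] = [v] [a' y_n] [v]* = [a' y_n]`. -/
theorem Induces.of_inner {a a' : A ≃⋆ₐ[ℂ] A} {b : FOmega ω A ≃⋆ₐ[ℂ] FOmega ω A} {v : A}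
    (hv : v ∈ unitary A) (haa' : ∀ x, a x = v * a' x * star v) (h : Induces ω a' b) :
    Induces ω a b := by
  intro x y hxy
  have h1 := h x y hxy
  have h2 : (toUltrapower ω A (lpMap (a' : A →⋆ₐ[ℂ] A) y)) ∈ centralSeq ω A := by
    rw [← h1]
    exact (b x).2
  have h3 : lpMap (a : A →⋆ₐ[ℂ] A) y =
      constSeq A v * lpMap (a' : A →⋆ₐ[ℂ] A) y * constSeq A (star v) := by
    ext n
    exact haa' (y n)
  have h4 : constSeq A v * constSeq A (star v) = 1 := by
    ext n
    exact (Unitary.mem_iff.1 hv).2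
  rw [h1, h3, map_mul, map_mul, mem_centralSeq.1 h2 v, mul_assoc, ← map_mul, h4, map_one, mul_one]

end P095E
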