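import Mathlib
import Vale.Agent.Lib.P095E.CopiesE
import Vale.Agent.Lib.P095E.Induced

/-!
# P095, module B3: `F_ω(A)` has equivariant copies
-/

open scoped ENNReal Topology
open Filter P101

namespace P095E

universe u v

/-- Same proof as `P101.hasCopies_FOmega` (file `Lib/P101/Copies.lean`): apply
`exists_seq_of_forall_finset_exists'` to the type of the equivariant homomorphisms `D → F_ω(A)`
(predicate `P θ := ∀ s ∈ S, ∀ d e, s d = e → s (θ d) = θ e`) with the relation of commuting ranges.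
A countable set `S` of induced automorphisms: enumerate it by `ℕ` (if `S` is empty use `κ = Empty`,
or `S.eq_empty_or_nonempty` and `Set.Countable.exists_eq_range`). -/
theorem hasEquivCopies_FOmega (ω : Ultrafilter ℕ) (hω : (ω : Filter ℕ) ≤ Filter.cofinite)
    (A : Type u) [CStarAlgebra A] [Nontrivial A] [TopologicalSpace.SeparableSpace A]
    (S : Set (FOmega ω A ≃⋆ₐ[ℂ] FOmega ω A)) (hS : S.Countable)
    (h : ∀ b ∈ S, ∃ a : A ≃⋆ₐ[ℂ] A, Induces ω a b) : HasEquivCopies S := by
  obtain ⟨κ, hκ, b, hb⟩ : ∃ (κ : Type) (_ : Countable κ)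
      (b : κ → (FOmega ω A ≃⋆ₐ[ℂ] FOmega ω A)), Set.range b = S := by
    rcases S.eq_empty_or_nonempty with h0 | h1
    · refine ⟨Empty, inferInstance, fun e => e.elim, ?_⟩
      rw [h0, Set.range_eq_empty]
    · obtain ⟨f, hf⟩ := hS.exists_eq_range h1
      exact ⟨ℕ, inferInstance, f, hf.symm⟩
  have h' : ∀ i : κ, ∃ a : A ≃⋆ₐ[ℂ] A, Induces ω a (b i) := fun i => by
    apply h
    rw [← hb]
    exact Set.mem_range_self i
  choose α hα using h'
  intro D hcl hsep _
  have hclD : IsClosed (D : Set (FOmega ω A)) := hcl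
  have hsepD : TopologicalSpace.SeparableSpace D := hsep.separableSpace
  have hcont : ∀ θ : D →⋆ₐ[ℂ] FOmega ω A, Continuous θ := fun θ =>
    AddMonoidHomClass.continuous_of_bound θ 1 fun a => by
      rw [one_mul]
      exact NonUnitalStarAlgHom.norm_apply_le θ a
  have hsymm : Std.Symm (fun x y : D →⋆ₐ[ℂ] FOmega ω A => ∀ d e : D, Commute (x d) (y e)) :=
    ⟨fun x y h d e => (h e d).symm⟩
  obtain ⟨θ, hP, hθ⟩ := exists_seq_of_forall_finset_exists'
    (fun θ : D →⋆ₐ[ℂ] FOmega ω A => ∀ s ∈ S, ∀ d e : D,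
      s (d : FOmega ω A) = (e : FOmega ω A) → s (θ d) = θ e)
    (fun x y => ∀ d e : D, Commute (x d) (y e)) (by
      intro s _
      have hC : TopologicalSpace.IsSeparable
          (⋃ x : {x // x ∈ s}, Set.range (x : D →⋆ₐ[ℂ] FOmega ω A)) :=
        TopologicalSpace.isSeparable_iUnion.2 fun x =>
          TopologicalSpace.isSeparable_range (hcont x)
      obtain ⟨θ, hθ, hE⟩ := exists_hom_commutingE ω hω A α b hα D hcl hsep _ hC
      refine ⟨θ, ?_, fun x hx d e => ?_⟩
      · intro t ht d e hde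
        rw [← hb] at ht
        obtain ⟨i, rfl⟩ := ht
        exact hE i d e hde
      · exact (hθ e (x d) (Set.mem_iUnion.2 ⟨⟨x, hx⟩, d, rfl⟩)).symm)
  exact ⟨θ, fun i j hij d e => hθ hij d e, fun j s hs d e hde => hP j s hs d e hde⟩

end P095E
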