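import Vale.Agent.Lib.P095E.Defs

/-!
# P095, module B4: fixed point algebras have copies; generated subgroups
-/

open scoped ENNReal Topology
open Filter P101

namespace P095E

universe u v

/-- The fixed point algebra of `S` has commuting copies: for `D ⊆ fixAlg S` closed separable the
image of `D` in `F` is closed (`fixAlg S` is closed), separable and pointwise fixed by `S`, and the
equivariant homomorphisms `θ_j` satisfy `s (θ_j d) = θ_j d`, so they take values in `fixAlg S`. -/
theorem hasCopies_fixAlg {F : Type u} [CStarAlgebra F] {S : Set (F ≃⋆ₐ[ℂ] F)}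
    (h : HasEquivCopies S) : HasCopies (fixAlg S) := by
  intro D hD hsep
  have hmem : ∀ x : F, x ∈ D.map (fixAlg S).subtype ↔ ∃ y ∈ D, (y : F) = x := by
    intro x
    exact StarSubalgebra.mem_map
  have hset : (D.map (fixAlg S).subtype : Set F) = (fun y : fixAlg S => (y : F)) '' (D : Set (fixAlg S)) := by
    ext x
    exact hmem x
  have hD' : IsClosed (D.map (fixAlg S).subtype : Set F) := by
    rw [hset]
    exact (fixAlg_isClosed S).isClosedEmbedding_subtypeVal.isClosedMap _ hD
  have hsep' : TopologicalSpace.IsSeparable (D.map (fixAlg S).subtype : Set F) := by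
    rw [hset]
    exact hsep.image continuous_subtype_val
  have hfix : ∀ s ∈ S, ∀ d ∈ D.map (fixAlg S).subtype, s d = d := by
    intro s hs d hd
    obtain ⟨y, -, rfl⟩ := (hmem d).1 hd
    exact y.2 s hs
  obtain ⟨θ, hc, he⟩ := h (D.map (fixAlg S).subtype) hD' hsep' (by
    intro s hs d hd
    rw [hfix s hs d hd]
    exact hd)
  have hin : ∀ j, ∀ d : D.map (fixAlg S).subtype, θ j d ∈ fixAlg S := by
    intro j d s hs
    exact he j s hs d d (hfix s hs d d.2)
  let ι : D →⋆ₐ[ℂ] (D.map (fixAlg S).subtype) :=
    StarAlgHom.codRestrict ((fixAlg S).subtype.comp D.subtype) (D.map (fixAlg S).subtype)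
      (fun x => (hmem _).2 ⟨x.1, x.2, rfl⟩)
  refine ⟨fun j => StarAlgHom.codRestrict ((θ j).comp ι) (fixAlg S) (fun x => hin j _), ?_⟩
  intro i j hij d e
  have := hc i j hij (ι d) (ι e)
  exact Subtype.ext this.eq

/-- Monotonicity: equivariant copies for a set of automorphisms give equivariant copies for the
subgroup it generates: a `*-homomorphism` equivariant under `s` and `t` is equivariant under `s t`
and `s⁻¹`; the invariance of `D` under the subgroup implies the invariance under `S`
(`Subgroup.closure_induction`; note `D` is invariant under `s` and `s⁻¹`). -/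
theorem HasEquivCopies.closure {F : Type u} [CStarAlgebra F] {S : Set (F ≃⋆ₐ[ℂ] F)}
    (h : HasEquivCopies S) : HasEquivCopies (Subgroup.closure S : Set (F ≃⋆ₐ[ℂ] F)) := by
  intro D hD hsep hinv
  obtain ⟨θ, hc, he⟩ := h D hD hsep (fun s hs => hinv s (Subgroup.subset_closure hs))
  refine ⟨θ, hc, fun j s hs => ?_⟩
  refine Subgroup.closure_induction (p := fun s _ => ∀ d e : D, s (d : F) = (e : F) →
    s (θ j d) = θ j e) ?_ ?_ ?_ ?_ hs
  · intro s hs d e hde
    exact he j s hs d e hde
  · intro d e hde
    have : d = e := Subtype.ext hde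
    rw [this]
    rfl
  · intro s t hs' ht' ihs iht d e hde
    have ht1 : t (d : F) ∈ D := hinv t ht' d d.2
    have h1 : t (θ j d) = θ j ⟨t (d : F), ht1⟩ := iht d ⟨t (d : F), ht1⟩ rfl
    have h2 : s (θ j ⟨t (d : F), ht1⟩) = θ j e := ihs ⟨t (d : F), ht1⟩ e hde
    show s (t (θ j d)) = θ j e
    rw [h1, h2]
  · intro s hs' ihs d e hde
    have h1 : s (e : F) = (d : F) := by
      rw [← hde]
      exact StarAlgEquiv.apply_symm_apply s _
    have h2 : s (θ j e) = θ j d := ihs e d h1
    show s.symm (θ j d) = θ j e
    rw [← h2]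
    exact StarAlgEquiv.symm_apply_apply s _

/-- the fixed points of `S` and of the subgroup generated by `S` agree -/
theorem fixAlg_closure {F : Type u} [CStarAlgebra F] (S : Set (F ≃⋆ₐ[ℂ] F)) :
    fixAlg (Subgroup.closure S : Set (F ≃⋆ₐ[ℂ] F)) = fixAlg S := by
  refine le_antisymm (fun x hx s hs => hx s (Subgroup.subset_closure hs)) ?_
  intro x hx s hs
  refine Subgroup.closure_induction (p := fun s _ => s x = x) ?_ ?_ ?_ ?_ hs
  · intro s hs
    exact hx s hs
  · rfl
  · intro s t _ _ ihs iht
    show s (t x) = x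
    rw [iht, ihs]
  · intro s _ ihs
    show s.symm x = x
    conv_lhs => rw [← ihs]
    exact StarAlgEquiv.symm_apply_apply s _

end P095E
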