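import Mathlib

/-!
# P095: sequences which are eventually one, and multilinear positive definite functions on them

`Sq D` is the monoid of the sequences in the unital C*-algebra `D` with only finitely many terms
`≠ 1`.  A function `Φ : Sq D → ℂ` which is linear in every coordinate and positive definite is the
same as a state (up to normalization) on the algebraic infinite tensor power of `D`.
-/

open scoped Topology
open Filter

namespace P095E

universe u v

/-- sequences in `D` with only finitely many terms different from `1`. -/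
def Sq (D : Type u) [Monoid D] : Submonoid (ℕ → D) where
  carrier := {x | (Function.mulSupport x).Finite}
  mul_mem' := fun {x y} hx hy =>
    (Set.Finite.union hx hy).subset (Function.mulSupport_mul x y)
  one_mem' := by
    rw [Set.mem_ofPred_eq, Function.mulSupport_one]
    exact Set.finite_empty

namespace Sq

variable {D : Type u} [CStarAlgebra D]

theorem ext {x y : Sq D} (h : ∀ n, x.1 n = y.1 n) : x = y := Subtype.ext (funext h)

/-- replace the `j`-th term by `a` -/
def upd (x : Sq D) (j : ℕ) (a : D) : Sq D :=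
  ⟨Function.update x.1 j a, by
    refine (Set.Finite.union x.2 (Set.finite_singleton j)).subset fun n hn => ?_
    by_cases h : n = j
    · exact Or.inr h
    · refine Or.inl ?_
      rw [Function.mem_mulSupport] at hn ⊢
      rwa [Function.update_of_ne h] at hn⟩

/-- the sequence `(a, x_0, x_1, …)` -/
def cons (a : D) (x : Sq D) : Sq D :=
  ⟨fun n => Nat.casesOn n a x.1, by
    refine (Set.Finite.union (Set.finite_singleton 0) (x.2.image Nat.succ)).subset fun n hn => ?_
    cases n with
    | zero => exact Or.inl rfl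
    | succ n => exact Or.inr ⟨n, hn, rfl⟩⟩

/-- the permuted sequence `(x_{π(0)}, x_{π(1)}, …)` -/
def perm (π : Equiv.Perm ℕ) (x : Sq D) : Sq D :=
  ⟨fun n => x.1 (π n), x.2.preimage π.injective.injOn⟩

/-- the termwise adjoint -/
def st (x : Sq D) : Sq D :=
  ⟨fun n => star (x.1 n), by
    refine Set.Finite.subset x.2 fun n hn => ?_
    rw [Function.mem_mulSupport] at hn ⊢
    intro h
    exact hn (by rw [h, star_one])⟩

/-- an automorphism applied to all terms -/
def act (s : D ≃⋆ₐ[ℂ] D) (x : Sq D) : Sq D :=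
  ⟨fun n => s (x.1 n), by
    refine Set.Finite.subset x.2 fun n hn => ?_
    rw [Function.mem_mulSupport] at hn ⊢
    intro h
    exact hn (by rw [h, map_one])⟩

@[simp] theorem upd_apply (x : Sq D) (j : ℕ) (a : D) (n : ℕ) :
    (upd x j a).1 n = if n = j then a else x.1 n := by
  change Function.update x.1 j a n = _
  by_cases h : n = j
  · subst h; simp
  · simp [h]

@[simp] theorem cons_zero (a : D) (x : Sq D) : (cons a x).1 0 = a := rfl

@[simp] theorem cons_succ (a : D) (x : Sq D) (n : ℕ) : (cons a x).1 (n + 1) = x.1 n := rfl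

@[simp] theorem perm_apply (π : Equiv.Perm ℕ) (x : Sq D) (n : ℕ) : (perm π x).1 n = x.1 (π n) :=
  rfl

@[simp] theorem st_apply (x : Sq D) (n : ℕ) : (st x).1 n = star (x.1 n) := rfl

@[simp] theorem act_apply (s : D ≃⋆ₐ[ℂ] D) (x : Sq D) (n : ℕ) : (act s x).1 n = s (x.1 n) := rfl

@[simp] theorem mul_apply (x y : Sq D) (n : ℕ) : (x * y).1 n = x.1 n * y.1 n := rfl

@[simp] theorem one_apply (n : ℕ) : (1 : Sq D).1 n = 1 := rfl

theorem cons_mul (a b : D) (x y : Sq D) : cons a x * cons b y = cons (a * b) (x * y) :=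
  ext fun n => by cases n <;> rfl

theorem cons_one_one : cons (1 : D) 1 = 1 := ext fun n => by cases n <;> rfl

theorem st_cons (a : D) (x : Sq D) : st (cons a x) = cons (star a) (st x) :=
  ext fun n => by cases n <;> rfl

theorem act_cons (s : D ≃⋆ₐ[ℂ] D) (a : D) (x : Sq D) : act s (cons a x) = cons (s a) (act s x) :=
  ext fun n => by cases n <;> rfl

theorem act_one (s : D ≃⋆ₐ[ℂ] D) : act s (1 : Sq D) = 1 :=
  ext fun n => by rw [act_apply, one_apply, map_one]

theorem upd_cons_zero (a b : D) (x : Sq D) : upd (cons a x) 0 b = cons b x :=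
  ext fun n => by cases n <;> simp

theorem upd_cons_succ (a b : D) (x : Sq D) (j : ℕ) :
    upd (cons a x) (j + 1) b = cons a (upd x j b) :=
  ext fun n => by
    cases n with
    | zero => simp
    | succ n => simp

end Sq

section IsSt

variable {D : Type u} [CStarAlgebra D] {G : Type v} [Group G] [Fintype G]

/-- `Φ : Sq D → ℂ` is linear in every coordinate, positive definite and satisfies the averaged commutation relation. -/
structure IsSt (δ : G →* (D ≃⋆ₐ[ℂ] D)) (Φ : Sq D → ℂ) : Prop where
  add : ∀ (x : Sq D) (j : ℕ) (a b : D),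
    Φ (Sq.upd x j (a + b)) = Φ (Sq.upd x j a) + Φ (Sq.upd x j b)
  smul : ∀ (x : Sq D) (j : ℕ) (c : ℂ) (a : D),
    Φ (Sq.upd x j (c • a)) = c * Φ (Sq.upd x j a)
  pos : ∀ (n : ℕ) (x : Fin n → Sq D) (c : Fin n → ℂ), ∃ r : ℝ, 0 ≤ r ∧
    ∑ i, ∑ j, star (c i) * c j * Φ (Sq.st (x i) * x j) = (r : ℂ)
  avg : ∀ z x y : Sq D, ∑ g, ∑ h, (Φ (z * Sq.act (δ g) x * Sq.act (δ h) y) -
    Φ (z * Sq.act (δ h) y * Sq.act (δ g) x)) = 0

/-- invariance under all permutations of the coordinates -/
def Symm (Φ : Sq D → ℂ) : Prop := ∀ (π : Equiv.Perm ℕ) (x : Sq D), Φ (Sq.perm π x) = Φ x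

/-- the normalized functions -/
def StSet (δ : G →* (D ≃⋆ₐ[ℂ] D)) : Set (Sq D → ℂ) := {Φ | IsSt δ Φ ∧ Φ 1 = 1}

end IsSt

end P095E
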