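import Mathlib
import Vale.Agent.Lib.P095E.SeqDefs

/-!
# P095, module A6: the product map of commuting homomorphisms
-/

open scoped Topology
open Filter

namespace P095E

universe u v

variable {D F : Type u} [CStarAlgebra D] [CStarAlgebra F]

/-- the product of the first `N` factors -/
private noncomputable def pmQ (θ : ℕ → (D →⋆ₐ[ℂ] F)) : ℕ → (ℕ → D) → F
  | 0, _ => 1
  | N + 1, x => pmQ θ N x * θ N (x N)

private theorem pmQ_congr (θ : ℕ → (D →⋆ₐ[ℂ] F)) {x y : ℕ → D} {N : ℕ}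
    (h : ∀ n < N, x n = y n) : pmQ θ N x = pmQ θ N y := by
  induction N with
  | zero => rfl
  | succ N ih =>
    show pmQ θ N x * θ N (x N) = pmQ θ N y * θ N (y N)
    rw [ih fun n hn => h n (by omega), h N (by omega)]

private theorem pmQ_comm {θ : ℕ → (D →⋆ₐ[ℂ] F)}
    (hθ : ∀ i j, i ≠ j → ∀ d e : D, Commute (θ i d) (θ j e)) (x : ℕ → D) {N M : ℕ} (h : N ≤ M)
    (d : D) : Commute (θ M d) (pmQ θ N x) := by
  induction N with
  | zero => exact Commute.one_right _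
  | succ N ih =>
    exact (ih (by omega)).mul_right (hθ M N (by omega) d (x N))

private theorem pmQ_mul {θ : ℕ → (D →⋆ₐ[ℂ] F)}
    (hθ : ∀ i j, i ≠ j → ∀ d e : D, Commute (θ i d) (θ j e)) (x y : ℕ → D) (N : ℕ) :
    pmQ θ N (fun n => x n * y n) = pmQ θ N x * pmQ θ N y := by
  induction N with
  | zero => exact (mul_one (1 : F)).symm
  | succ N ih =>
    show pmQ θ N (fun n => x n * y n) * θ N (x N * y N) =
      pmQ θ N x * θ N (x N) * (pmQ θ N y * θ N (y N))
    have hc : θ N (x N) * pmQ θ N y = pmQ θ N y * θ N (x N) :=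
      (pmQ_comm hθ y le_rfl (x N)).eq
    rw [ih, map_mul, mul_assoc (pmQ θ N x), mul_assoc (pmQ θ N x),
      ← mul_assoc (θ N (x N)) (pmQ θ N y), hc, mul_assoc (pmQ θ N y)]

private theorem pmQ_star {θ : ℕ → (D →⋆ₐ[ℂ] F)}
    (hθ : ∀ i j, i ≠ j → ∀ d e : D, Commute (θ i d) (θ j e)) (x : ℕ → D) (N : ℕ) :
    pmQ θ N (fun n => star (x n)) = star (pmQ θ N x) := by
  induction N with
  | zero => exact (star_one F).symm
  | succ N ih =>
    show pmQ θ N (fun n => star (x n)) * θ N (star (x N)) = star (pmQ θ N x * θ N (x N))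
    rw [ih, map_star, ← (pmQ_comm hθ x le_rfl (x N)).eq, star_mul]

private theorem pmQ_stable {θ : ℕ → (D →⋆ₐ[ℂ] F)} {x : ℕ → D} {N : ℕ}
    (h : ∀ n, N ≤ n → x n = 1) {M : ℕ} (hM : N ≤ M) : pmQ θ M x = pmQ θ N x := by
  induction M, hM using Nat.le_induction with
  | base => rfl
  | succ M hM ih =>
    show pmQ θ M x * θ M (x M) = pmQ θ N x
    rw [ih, h M hM, map_one, mul_one]

private theorem pmQ_upd {θ : ℕ → (D →⋆ₐ[ℂ] F)} (x : ℕ → D) (j : ℕ) {N : ℕ} (h : j < N) :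
    ∃ L R : F, ∀ a : D, pmQ θ N (fun n => if n = j then a else x n) = L * θ j a * R := by
  induction N, h using Nat.le_induction with
  | base =>
    refine ⟨pmQ θ j x, 1, fun a => ?_⟩
    show pmQ θ j (fun n => if n = j then a else x n) * θ j (if j = j then a else x j) = _
    rw [if_pos rfl, mul_one]
    congr 1
    refine pmQ_congr θ fun n hn => ?_
    rw [if_neg (by omega)]
  | succ N hN ih =>
    obtain ⟨L, R, hLR⟩ := ih
    refine ⟨L, R * θ N (x N), fun a => ?_⟩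
    show pmQ θ N (fun n => if n = j then a else x n) * θ N (if N = j then a else x N) = _
    rw [hLR, if_neg (by omega), mul_assoc]

private theorem pmQ_act {θ : ℕ → (D →⋆ₐ[ℂ] F)} (s : D ≃⋆ₐ[ℂ] D) (t : F ≃⋆ₐ[ℂ] F)
    (hst : ∀ j d, t (θ j d) = θ j (s d)) (x : ℕ → D) (N : ℕ) :
    pmQ θ N (fun n => s (x n)) = t (pmQ θ N x) := by
  induction N with
  | zero => exact (map_one t).symm
  | succ N ih =>
    show pmQ θ N (fun n => s (x n)) * θ N (s (x N)) = t (pmQ θ N x * θ N (x N))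
    rw [ih, map_mul, hst]

private theorem pm_bound (x : Sq D) : ∃ N : ℕ, ∀ n, N ≤ n → x.1 n = 1 := by
  obtain ⟨B, hB⟩ := (show (Function.mulSupport x.1).Finite from x.2).bddAbove
  refine ⟨B + 1, fun n hn => ?_⟩
  by_contra h
  have := hB (Function.mem_mulSupport.2 h)
  omega

/-- the product of all factors -/
private noncomputable def pmP (θ : ℕ → (D →⋆ₐ[ℂ] F)) (x : Sq D) : F :=
  pmQ θ (pm_bound x).choose x.1

private theorem pmP_eq (θ : ℕ → (D →⋆ₐ[ℂ] F)) (x : Sq D) {N : ℕ} (h : ∀ n, N ≤ n → x.1 n = 1) :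
    pmP θ x = pmQ θ N x.1 := by
  have h1 := pmQ_stable (θ := θ) (pm_bound x).choose_spec (le_max_left _ N)
  have h2 := pmQ_stable (θ := θ) h (le_max_right (pm_bound x).choose N)
  exact h1.symm.trans h2

private theorem pmP_upd (θ : ℕ → (D →⋆ₐ[ℂ] F)) (x : Sq D) (j : ℕ) :
    ∃ L R : F, ∀ a : D, pmP θ (Sq.upd x j a) = L * θ j a * R := by
  obtain ⟨N, hN⟩ := pm_bound x
  obtain ⟨L, R, hLR⟩ := pmQ_upd (θ := θ) x.1 j (N := max N (j + 1)) (by omega)
  refine ⟨L, R, fun a => ?_⟩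
  rw [← hLR a, pmP_eq θ (Sq.upd x j a) (N := max N (j + 1))]
  · refine pmQ_congr θ fun n _ => ?_
    exact Sq.upd_apply x j a n
  · intro n hn
    rw [Sq.upd_apply, if_neg (by omega)]
    exact hN n (by omega)

/-- For unital *-homomorphisms `θ_j : D → F` with pairwise commuting ranges the finite products
`P(x) = ∏_j θ_j(x_j)` define a monoid homomorphism with the stated properties.

Proof.  `P(x) = ∏_{j < N} θ_j(x_j)` (a `List.prod` over `List.range N` or a recursively defined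
product `P_0 = 1`, `P_{N+1}(x) = P_N(x) * θ_N(x_N)`) for any `N` with `x_n = 1` for `n ≥ N`; the value
does not depend on `N` since `θ_j(1) = 1`.  `P_N(x y) = P_N(x) P_N(y)` by induction on `N`, because
`θ_N(x_N)` commutes with `P_N(y)`; `P_N(st x) = star (P_N x)` in the same way;
`P_N(act s x) = t (P_N x)` by induction.  Linearity in the `j`-th coordinate: induction on `N`
(for `j = N` only the last factor depends on `a`, for `j < N` the induction hypothesis, for `j > N`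
enlarge `N`). -/
theorem exists_prodMap (θ : ℕ → (D →⋆ₐ[ℂ] F))
    (hθ : ∀ i j, i ≠ j → ∀ d e : D, Commute (θ i d) (θ j e)) :
    ∃ P : Sq D →* F, (∀ x, P (Sq.st x) = star (P x)) ∧
      (∀ x j a b, P (Sq.upd x j (a + b)) = P (Sq.upd x j a) + P (Sq.upd x j b)) ∧
      (∀ x j (c : ℂ) a, P (Sq.upd x j (c • a)) = c • P (Sq.upd x j a)) ∧
      ∀ (s : D ≃⋆ₐ[ℂ] D) (t : F ≃⋆ₐ[ℂ] F), (∀ j d, t (θ j d) = θ j (s d)) →
        ∀ x, P (Sq.act s x) = t (P x) := by
  refine ⟨⟨⟨pmP θ, ?_⟩, ?_⟩, ?_, ?_, ?_, ?_⟩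
  · exact pmP_eq θ 1 (N := 0) fun n _ => rfl
  · intro x y
    obtain ⟨N, hN⟩ := pm_bound x
    obtain ⟨M, hM⟩ := pm_bound y
    have hx : ∀ n, max N M ≤ n → x.1 n = 1 := fun n hn => hN n (by omega)
    have hy : ∀ n, max N M ≤ n → y.1 n = 1 := fun n hn => hM n (by omega)
    have hxy : ∀ n, max N M ≤ n → (x * y).1 n = 1 := fun n hn => by
      rw [Sq.mul_apply, hx n hn, hy n hn, mul_one]
    show pmP θ (x * y) = pmP θ x * pmP θ y
    rw [pmP_eq θ x hx, pmP_eq θ y hy, pmP_eq θ (x * y) hxy]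
    exact pmQ_mul hθ x.1 y.1 _
  · intro x
    obtain ⟨N, hN⟩ := pm_bound x
    have hs : ∀ n, N ≤ n → (Sq.st x).1 n = 1 := fun n hn => by
      rw [Sq.st_apply, hN n hn, star_one]
    show pmP θ (Sq.st x) = star (pmP θ x)
    rw [pmP_eq θ x hN, pmP_eq θ (Sq.st x) hs]
    exact pmQ_star hθ x.1 N
  · intro x j a b
    obtain ⟨L, R, h⟩ := pmP_upd θ x j
    show pmP θ (Sq.upd x j (a + b)) = pmP θ (Sq.upd x j a) + pmP θ (Sq.upd x j b)
    rw [h, h, h, map_add, mul_add, add_mul]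
  · intro x j c a
    obtain ⟨L, R, h⟩ := pmP_upd θ x j
    show pmP θ (Sq.upd x j (c • a)) = c • pmP θ (Sq.upd x j a)
    rw [h, h, map_smul, mul_smul_comm, smul_mul_assoc]
  · intro s t hst x
    obtain ⟨N, hN⟩ := pm_bound x
    have hs : ∀ n, N ≤ n → (Sq.act s x).1 n = 1 := fun n hn => by
      rw [Sq.act_apply, hN n hn, map_one]
    show pmP θ (Sq.act s x) = t (pmP θ x)
    rw [pmP_eq θ x hN, pmP_eq θ (Sq.act s x) hs]
    exact pmQ_act s t hst x.1 N

end P095E
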