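import Mathlib
import Vale.Agent.Lib.P095E.SeqDefs

/-!
# P095, module A2: the functions `x ↦ Φ (cons (b* b) x)`
-/

open scoped Topology
open Filter

namespace P095E

universe u v

variable {D : Type u} [CStarAlgebra D] {G : Type v} [Group G] [Fintype G]
  {δ : G →* (D ≃⋆ₐ[ℂ] D)} {Φ : Sq D → ℂ}

/-- Put the positive element `star b * b` in the first coordinate and shift.
Proof: `add`, `smul`: `cons a (upd x j c) = upd (cons a x) (j+1) c` (`Sq.upd_cons_succ`).
`pos`: `cons (star b * b) (st x * y) = st (cons b x) * cons b y` (`Sq.st_cons`, `Sq.cons_mul`).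
`avg`: with `a = star b * b`, apply `avg` of `Φ` to `cons a z`, `cons 1 x`, `cons 1 y`
(`Sq.act_cons`, `Sq.cons_mul`, `map_one`). -/
theorem IsSt.cons (h : IsSt δ Φ) (b : D) : IsSt δ (fun x => Φ (Sq.cons (star b * b) x)) := by
  refine ⟨fun x j a c => ?_, fun x j c a => ?_, fun n x c => ?_, fun z x y => ?_⟩
  · rw [← Sq.upd_cons_succ, ← Sq.upd_cons_succ, ← Sq.upd_cons_succ]
    exact h.add _ _ _ _
  · rw [← Sq.upd_cons_succ, ← Sq.upd_cons_succ]
    exact h.smul _ _ _ _
  · obtain ⟨r, hr, hr2⟩ := h.pos n (fun i => Sq.cons b (x i)) c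
    refine ⟨r, hr, ?_⟩
    rw [← hr2]
    refine Finset.sum_congr rfl fun i _ => Finset.sum_congr rfl fun j _ => ?_
    rw [Sq.st_cons, Sq.cons_mul]
  · have h1 := h.avg (Sq.cons (star b * b) z) (Sq.cons 1 x) (Sq.cons 1 y)
    rw [← h1]
    refine Finset.sum_congr rfl fun g _ => Finset.sum_congr rfl fun k _ => ?_
    rw [Sq.act_cons, Sq.act_cons, map_one, map_one, Sq.cons_mul, Sq.cons_mul, Sq.cons_mul,
      Sq.cons_mul, mul_one, mul_one]

/-- The symmetry is inherited: extend the permutation `π` of `ℕ` to the permutation fixing `0` and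
sending `n + 1` to `π n + 1`. -/
theorem Symm.cons (h : Symm Φ) (a : D) : Symm (fun x => Φ (Sq.cons a x)) := by
  intro π x
  let σ : Equiv.Perm ℕ :=
    { toFun := fun n => Nat.casesOn n 0 (fun k => π k + 1)
      invFun := fun n => Nat.casesOn n 0 (fun k => π.symm k + 1)
      left_inv := by
        intro n
        cases n with
        | zero => rfl
        | succ n => change π.symm (π n) + 1 = n + 1; rw [Equiv.symm_apply_apply]
      right_inv := by
        intro n
        cases n with
        | zero => rfl
        | succ n => change π (π.symm n) + 1 = n + 1; rw [Equiv.apply_symm_apply] }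
  have e : Sq.cons a (Sq.perm π x) = Sq.perm σ (Sq.cons a x) := by
    refine Sq.ext fun n => ?_
    cases n with
    | zero => rfl
    | succ n => rfl
  change Φ (Sq.cons a (Sq.perm π x)) = Φ (Sq.cons a x)
  rw [e]
  exact h σ _

/-- `Φ(1, x_0, x_1, …) = Φ(x_0, x_1, …)` for symmetric `Φ`: `x_n = 1` for `n ≥ N`, so
`cons 1 x = perm π x` where `π` is the cyclic permutation `0 ↦ N`, `k + 1 ↦ k` for `k < N`,
and `k ↦ k` for `k > N`. -/
theorem Symm.cons_one (h : Symm Φ) (x : Sq D) : Φ (Sq.cons 1 x) = Φ x := by
  obtain ⟨N, hN⟩ : ∃ N : ℕ, ∀ n, N ≤ n → x.1 n = 1 := by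
    have hx : (Function.mulSupport x.1).Finite := x.2
    obtain ⟨M, hM⟩ := hx.bddAbove
    refine ⟨M + 1, fun n hn => ?_⟩
    by_contra hne
    have h1 : n ≤ M := hM hne
    omega
  let σ : Equiv.Perm ℕ :=
    { toFun := fun k => if k = 0 then N else if k ≤ N then k - 1 else k
      invFun := fun k => if k = N then 0 else if k < N then k + 1 else k
      left_inv := by
        intro k
        change (if (if k = 0 then N else if k ≤ N then k - 1 else k) = N then 0 else
          if (if k = 0 then N else if k ≤ N then k - 1 else k) < N then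
            (if k = 0 then N else if k ≤ N then k - 1 else k) + 1 else
            (if k = 0 then N else if k ≤ N then k - 1 else k)) = k
        split_ifs <;> omega
      right_inv := by
        intro k
        change (if (if k = N then 0 else if k < N then k + 1 else k) = 0 then N else
          if (if k = N then 0 else if k < N then k + 1 else k) ≤ N then
            (if k = N then 0 else if k < N then k + 1 else k) - 1 else
            (if k = N then 0 else if k < N then k + 1 else k)) = k
        rcases lt_trichotomy k N with h1 | h1 | h1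
        · rw [if_neg (show ¬ k = N by omega), if_pos h1, if_neg (Nat.succ_ne_zero k),
            if_pos (show k + 1 ≤ N by omega), Nat.add_sub_cancel]
        · rw [if_pos h1, if_pos rfl, h1]
        · rw [if_neg (show ¬ k = N by omega), if_neg (show ¬ k < N by omega),
            if_neg (show ¬ k = 0 by omega), if_neg (show ¬ k ≤ N by omega)] }
  have e : Sq.cons 1 x = Sq.perm σ x := by
    refine Sq.ext fun n => ?_
    cases n with
    | zero =>
      change (1 : D) = x.1 (if (0 : ℕ) = 0 then N else if (0 : ℕ) ≤ N then 0 - 1 else 0)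
      rw [if_pos rfl, hN N le_rfl]
    | succ n =>
      change x.1 n = x.1 (if n + 1 = 0 then N else if n + 1 ≤ N then n + 1 - 1 else n + 1)
      rw [if_neg (Nat.succ_ne_zero n)]
      by_cases hn : n + 1 ≤ N
      · rw [if_pos hn, Nat.add_sub_cancel]
      · rw [if_neg hn, hN n (by omega), hN (n + 1) (by omega)]
  rw [e]
  exact h σ _

end P095E
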