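import Mathlib
import Vale.Agent.Lib.P095E.SeqDefs

/-!
# P095, module A1: the norm bound
-/

open scoped Topology
open Filter

namespace P095E

universe u v

variable {D : Type u} [CStarAlgebra D] {G : Type v} [Group G] [Fintype G]

section SeqBoundAux

variable {δ : G →* (D ≃⋆ₐ[ℂ] D)} {Φ : Sq D → ℂ}

private theorem sb_st_one : Sq.st (1 : Sq D) = 1 :=
  Sq.ext fun n => by rw [Sq.st_apply, Sq.one_apply, star_one]

private theorem sb_pos (h : IsSt δ Φ) (x : Sq D) :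
    0 ≤ (Φ (Sq.st x * x)).re ∧ (Φ (Sq.st x * x)).im = 0 := by
  obtain ⟨r, hr, he⟩ := h.pos 1 (fun _ => x) (fun _ => 1)
  simp only [Finset.univ_unique, Finset.sum_singleton, star_one, one_mul] at he
  rw [he]
  exact ⟨by simpa using hr, by simp⟩

private theorem sb_form (h : IsSt δ Φ) (x : Sq D) (c d : ℂ) : ∃ r : ℝ, 0 ≤ r ∧
    star c * c * Φ 1 + star c * d * Φ x + star d * c * Φ (Sq.st x) +
      star d * d * Φ (Sq.st x * x) = (r : ℂ) := by
  obtain ⟨r, hr, he⟩ := h.pos 2 ![1, x] ![c, d]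
  refine ⟨r, hr, ?_⟩
  simp only [Fin.sum_univ_two, Matrix.cons_val_zero, Matrix.cons_val_one, sb_st_one, one_mul,
    mul_one] at he
  rw [← he]
  ring

private theorem sb_one (h : IsSt δ Φ) : 0 ≤ (Φ 1).re ∧ (Φ 1).im = 0 := by
  have := sb_pos h 1
  rwa [sb_st_one, mul_one] at this

private theorem sb_cs (h : IsSt δ Φ) (x : Sq D) :
    ‖Φ x‖ ^ 2 ≤ (Φ (Sq.st x * x)).re * (Φ 1).re := by
  obtain ⟨hq, hq'⟩ := sb_one h
  obtain ⟨hp, hp'⟩ := sb_pos h x
  have hst : Φ (Sq.st x) = star (Φ x) := by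
    obtain ⟨r, -, h1⟩ := sb_form h x 1 1
    obtain ⟨s, -, h2⟩ := sb_form h x 1 Complex.I
    have e1 := congrArg Complex.im h1
    have e2 := congrArg Complex.im h2
    simp at e1 e2
    apply Complex.ext
    · simp
      linarith
    · simp
      linarith
  rcases eq_or_ne (Φ x) 0 with h0 | h0
  · rw [h0, norm_zero]
    have := mul_nonneg hp hq
    simpa using this
  have hn : 0 < ‖Φ x‖ ^ 2 := by
    have := norm_pos_iff.2 h0
    positivity
  have hsq : (Φ x) * star (Φ x) = ((‖Φ x‖ ^ 2 : ℝ) : ℂ) := by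
    rw [Complex.star_def, Complex.mul_conj, Complex.normSq_eq_norm_sq]
  have hquad : ∀ t : ℝ, 0 ≤ (Φ 1).re * (t * t) + 2 * ‖Φ x‖ ^ 2 * t +
      ‖Φ x‖ ^ 2 * (Φ (Sq.st x * x)).re := by
    intro t
    obtain ⟨r, hr, he⟩ := sb_form h x (t : ℂ) (star (Φ x))
    rw [hst] at he
    have e3 : star ((t : ℝ) : ℂ) * star (Φ x) * Φ x = ((t * ‖Φ x‖ ^ 2 : ℝ) : ℂ) := by
      rw [mul_assoc, mul_comm (star (Φ x)), hsq]
      simp
    have e4 : star (star (Φ x)) * (t : ℂ) * star (Φ x) = ((t * ‖Φ x‖ ^ 2 : ℝ) : ℂ) := by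
      rw [star_star, mul_right_comm, hsq]
      push_cast
      ring
    have e5 : star (star (Φ x)) * star (Φ x) = ((‖Φ x‖ ^ 2 : ℝ) : ℂ) := by
      rw [star_star, hsq]
    rw [e3, e4, e5] at he
    have e6 := congrArg Complex.re he
    have e7 : star ((t : ℝ) : ℂ) * (t : ℂ) = ((t * t : ℝ) : ℂ) := by
      simp
    rw [e7] at e6
    rw [Complex.add_re, Complex.add_re, Complex.add_re, Complex.re_ofReal_mul,
      Complex.re_ofReal_mul, Complex.ofReal_re, Complex.ofReal_re] at e6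
    nlinarith
  have hd := discrim_le_zero hquad
  unfold discrim at hd
  have h8 : ‖Φ x‖ ^ 2 * (‖Φ x‖ ^ 2 - (Φ (Sq.st x * x)).re * (Φ 1).re) ≤ 0 := by nlinarith
  have h9 := nonpos_of_mul_nonpos_right h8 hn
  linarith

private theorem sb_upd_st (y : Sq D) (j : ℕ) (c : D) :
    Sq.st (Sq.upd y j c) * Sq.upd y j c = Sq.upd (Sq.st y * y) j (star c * c) :=
  Sq.ext fun n => by
    by_cases hn : n = j <;> simp [hn]

private theorem sb_sqrt (a : D) :
    ∃ b : D, star a * a + star b * b = (((‖a‖ ^ 2 : ℝ) : ℂ)) • (1 : D) := by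
  let _ := CStarAlgebra.spectralOrder D
  let _ := CStarAlgebra.spectralOrderedRing D
  have h1 : star a * a ≤ algebraMap ℝ D (‖a‖ ^ 2) := CStarAlgebra.star_mul_le_algebraMap_norm_sq
  have h2 : 0 ≤ algebraMap ℝ D (‖a‖ ^ 2) - star a * a := sub_nonneg.2 h1
  obtain ⟨b, hb⟩ := CStarAlgebra.nonneg_iff_eq_star_mul_self.1 h2
  refine ⟨b, ?_⟩
  rw [← hb, add_sub_cancel, Algebra.algebraMap_eq_smul_one]
  exact (Complex.coe_smul _ _).symm

private theorem sb_replace (h : IsSt δ Φ) (y : Sq D) (j : ℕ) (a : D) :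
    (Φ (Sq.st (Sq.upd y j a) * Sq.upd y j a)).re ≤
      ‖a‖ ^ 2 * (Φ (Sq.st (Sq.upd y j 1) * Sq.upd y j 1)).re := by
  obtain ⟨b, hb⟩ := sb_sqrt a
  have h1 := (sb_pos h (Sq.upd y j b)).1
  rw [sb_upd_st] at h1 ⊢
  rw [sb_upd_st, star_one, one_mul]
  have h2 := h.add (Sq.st y * y) j (star a * a) (star b * b)
  rw [hb, h.smul] at h2
  have h3 := congrArg Complex.re h2
  rw [Complex.add_re, Complex.re_ofReal_mul] at h3
  linarith

private theorem sb_ind (h : IsSt δ Φ) (N : ℕ) : ∀ x : Sq D, (∀ n, N ≤ n → x.1 n = 1) →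
    (Φ (Sq.st x * x)).re ≤ (∏ j ∈ Finset.range N, ‖x.1 j‖ ^ 2) * (Φ 1).re := by
  induction N with
  | zero =>
    intro x hx
    have : x = 1 := Sq.ext fun n => hx n (Nat.zero_le n)
    rw [this, sb_st_one, mul_one, Finset.range_zero, Finset.prod_empty, one_mul]
  | succ N ih =>
    intro x hx
    have hxu : Sq.upd (Sq.upd x N 1) N (x.1 N) = x := Sq.ext fun n => by
      by_cases hn : n = N
      · subst hn; simp
      · simp [hn]
    have h1 := sb_replace h (Sq.upd x N 1) N (x.1 N)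
    rw [hxu] at h1
    have hyy : Sq.upd (Sq.upd x N 1) N 1 = Sq.upd x N 1 := Sq.ext fun n => by
      by_cases hn : n = N <;> simp [hn]
    rw [hyy] at h1
    have h2 := ih (Sq.upd x N 1) (fun n hn => by
      rcases eq_or_lt_of_le hn with rfl | hn
      · simp
      · rw [Sq.upd_apply, if_neg (by omega)]
        exact hx n hn)
    have h3 : ∏ j ∈ Finset.range N, ‖(Sq.upd x N 1).1 j‖ ^ 2 =
        ∏ j ∈ Finset.range N, ‖x.1 j‖ ^ 2 := by
      refine Finset.prod_congr rfl fun j hj => ?_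
      rw [Sq.upd_apply, if_neg (Finset.mem_range.1 hj).ne]
    rw [h3] at h2
    calc (Φ (Sq.st x * x)).re ≤ ‖x.1 N‖ ^ 2 * (Φ (Sq.st (Sq.upd x N 1) * Sq.upd x N 1)).re := h1
      _ ≤ ‖x.1 N‖ ^ 2 * ((∏ j ∈ Finset.range N, ‖x.1 j‖ ^ 2) * (Φ 1).re) :=
          mul_le_mul_of_nonneg_left h2 (by positivity)
      _ = _ := by rw [Finset.prod_range_succ]; ring

end SeqBoundAux

/-- **Norm bound.**  For every sequence `x` there is a constant `C` (one can take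
`C = ∏_{j < N} ‖x_j‖` where `x_n = 1` for `n ≥ N`) with `‖Φ x‖ ≤ C ‖Φ 1‖` for all `Φ`.

Proof.  `IsSt.pos` with `n = 1` gives `Φ(x* x) ≥ 0` (real) for all `x`, with `n = 2` and the family
`(1, x)` it gives the Cauchy-Schwarz inequality `|Φ(x)|² ≤ Φ(x* x) Φ(1)` (the form
`(c_0, c_1) ↦ |c_0|² Φ(1) + 2 Re(conj c_0 c_1 Φ(x)) + |c_1|² Φ(x* x)` is real and nonnegative; first
take `c = (1, t)`, `(1, i t)` to see `Φ(x*) = conj Φ(x)`, then `c_0 = -Φ(x)`, `c_1 = Φ(1) + small`, or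
discuss `Φ(x* x) = 0` separately).
Now fix `N` with `x_n = 1` for `n ≥ N` (the set `mulSupport x` is finite).  Claim: for `a : D` and
`y : Sq D`: `Φ (st (upd y j a) * upd y j a) ≤ ‖a‖² Φ (st (upd y j 1) * upd y j 1)`.  Indeed there is
`b : D` with `star b * b = ‖a‖² • 1 - star a * a` (the right side is nonnegative; take the square
root; in Mathlib `CStarAlgebra.nonneg_iff_eq_star_mul_self` or `cfc Real.sqrt`), and
`st (upd y j c) * upd y j c = upd (st y * y) j (star c * c)` for every `c`, so by additivity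
`Φ(upd (st y * y) j (star a * a)) + Φ(upd (st y * y) j (star b * b)) = ‖a‖² Φ(upd (st y * y) j 1)`
and the second summand is `≥ 0`.
Replace the coordinates `0, …, N-1` of `x` one after the other by `1` (induction on `N`, e.g. for
the statement: for all `x` with `x_n = 1` for `n ≥ N`,
`Φ(x* x) ≤ (∏_{j<N} ‖x_j‖²) Φ(1)`, using `upd (upd x N 1)`): `Φ(x* x) ≤ ∏ ‖x_j‖² Φ(1)`.
Together: `|Φ(x)|² ≤ ∏ ‖x_j‖² Φ(1)²`. -/
theorem exists_bound (x : Sq D) :
    ∃ C : ℝ, ∀ (δ : G →* (D ≃⋆ₐ[ℂ] D)) (Φ : Sq D → ℂ), IsSt δ Φ → ‖Φ x‖ ≤ C * ‖Φ 1‖ := by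
  obtain ⟨M, hM⟩ := x.2.bddAbove
  have hx : ∀ n, M + 1 ≤ n → x.1 n = 1 := by
    intro n hn
    by_contra hne
    have := hM (show n ∈ Function.mulSupport x.1 from hne)
    omega
  refine ⟨∏ j ∈ Finset.range (M + 1), ‖x.1 j‖, fun δ Φ h => ?_⟩
  have h1 := sb_cs h x
  have h2 := sb_ind h (M + 1) x hx
  obtain ⟨hq, hq'⟩ := sb_one h
  have h3 : ‖Φ 1‖ = (Φ 1).re := by
    have : Φ 1 = (((Φ 1).re : ℝ) : ℂ) := Complex.ext (by simp) (by simpa using hq')
    rw [this, Complex.norm_real, Real.norm_eq_abs, abs_of_nonneg hq, Complex.ofReal_re]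
  rw [h3]
  have h4 : ‖Φ x‖ ^ 2 ≤ ((∏ j ∈ Finset.range (M + 1), ‖x.1 j‖) * (Φ 1).re) ^ 2 := by
    calc ‖Φ x‖ ^ 2 ≤ (Φ (Sq.st x * x)).re * (Φ 1).re := h1
      _ ≤ ((∏ j ∈ Finset.range (M + 1), ‖x.1 j‖ ^ 2) * (Φ 1).re) * (Φ 1).re :=
          mul_le_mul_of_nonneg_right h2 hq
      _ = _ := by rw [Finset.prod_pow]; ring
  have h5 : 0 ≤ (∏ j ∈ Finset.range (M + 1), ‖x.1 j‖) * (Φ 1).re :=
    mul_nonneg (Finset.prod_nonneg fun j _ => norm_nonneg _) hq
  exact abs_le_of_sq_le_sq' h4 h5 |>.2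

end P095E
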