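import Mathlib
import Vale.Agent.Lib.P095E.SeqBound

/-!
# P095, module A3: compactness, convexity, existence of symmetric elements
-/

open scoped Topology
open Filter

namespace P095E

universe u v

variable {D : Type u} [CStarAlgebra D] {G : Type v} [Group G] [Fintype G]
  (δ : G →* (D ≃⋆ₐ[ℂ] D))

/-- the nonnegative real numbers are closed in `ℂ` -/
private theorem sym_isClosed_nonneg : IsClosed {z : ℂ | ∃ r : ℝ, 0 ≤ r ∧ z = (r : ℂ)} := by
  have h : {z : ℂ | ∃ r : ℝ, 0 ≤ r ∧ z = (r : ℂ)} = {z : ℂ | z.im = 0} ∩ {z : ℂ | 0 ≤ z.re} := by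
    ext z
    constructor
    · rintro ⟨r, hr, rfl⟩
      exact ⟨Complex.ofReal_im r, by simpa using hr⟩
    · rintro ⟨h1, h2⟩
      exact ⟨z.re, h2, Complex.ext rfl (by simpa using h1)⟩
  rw [h]
  exact (isClosed_eq Complex.continuous_im continuous_const).inter
    (isClosed_le continuous_const Complex.continuous_re)

private theorem sym_isClosed_StSet : IsClosed (StSet δ) := by
  have h : StSet δ =
      (⋂ (x : Sq D), ⋂ (j : ℕ), ⋂ (a : D), ⋂ (b : D),
        {Φ : Sq D → ℂ | Φ (Sq.upd x j (a + b)) = Φ (Sq.upd x j a) + Φ (Sq.upd x j b)}) ∩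
      ((⋂ (x : Sq D), ⋂ (j : ℕ), ⋂ (c : ℂ), ⋂ (a : D),
        {Φ : Sq D → ℂ | Φ (Sq.upd x j (c • a)) = c * Φ (Sq.upd x j a)}) ∩
      ((⋂ (n : ℕ), ⋂ (x : Fin n → Sq D), ⋂ (c : Fin n → ℂ),
        (fun Φ : Sq D → ℂ => ∑ i, ∑ j, star (c i) * c j * Φ (Sq.st (x i) * x j)) ⁻¹'
          {z : ℂ | ∃ r : ℝ, 0 ≤ r ∧ z = (r : ℂ)}) ∩
      ((⋂ (z : Sq D), ⋂ (x : Sq D), ⋂ (y : Sq D),
        {Φ : Sq D → ℂ | ∑ g, ∑ h, (Φ (z * Sq.act (δ g) x * Sq.act (δ h) y) -
          Φ (z * Sq.act (δ h) y * Sq.act (δ g) x)) = 0}) ∩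
      {Φ : Sq D → ℂ | Φ 1 = 1}))) := by
    ext Φ
    simp only [Set.mem_inter_iff, Set.mem_iInter]
    constructor
    · rintro ⟨h1, h2⟩
      exact ⟨h1.add, h1.smul, h1.pos, h1.avg, h2⟩
    · rintro ⟨h1, h2, h3, h4, h5⟩
      exact ⟨⟨h1, h2, h3, h4⟩, h5⟩
  rw [h]
  refine IsClosed.inter ?_ (IsClosed.inter ?_ (IsClosed.inter ?_ (IsClosed.inter ?_ ?_)))
  · exact isClosed_iInter fun x => isClosed_iInter fun j => isClosed_iInter fun a =>
      isClosed_iInter fun b => isClosed_eq (by fun_prop) (by fun_prop)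
  · exact isClosed_iInter fun x => isClosed_iInter fun j => isClosed_iInter fun c =>
      isClosed_iInter fun a => isClosed_eq (continuous_apply _)
        (continuous_const.mul (continuous_apply _))
  · refine isClosed_iInter fun n => isClosed_iInter fun x => isClosed_iInter fun c => ?_
    refine sym_isClosed_nonneg.preimage ?_
    exact continuous_finsetSum _ fun i _ => continuous_finsetSum _ fun j _ =>
      continuous_const.mul (continuous_apply _)
  · refine isClosed_iInter fun z => isClosed_iInter fun x => isClosed_iInter fun y => ?_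
    refine isClosed_eq ?_ continuous_const
    exact continuous_finsetSum _ fun i _ => continuous_finsetSum _ fun j _ =>
      (continuous_apply _).sub (continuous_apply _)
  · exact isClosed_eq (continuous_apply _) continuous_const

/-- `StSet δ` is compact in the product topology of `Sq D → ℂ`: it is closed (all conditions are
closed conditions on finitely many values; for `pos`: the set of `z : ℂ` of the form `(r : ℂ)`,
`0 ≤ r`, is closed) and contained in the compact set `{Φ | ∀ x, ‖Φ x‖ ≤ C x}` (`exists_bound` and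
`Φ 1 = 1`; `isCompact_univ_pi`). -/
theorem isCompact_StSet : IsCompact (StSet δ) := by
  choose C hC using fun x : Sq D => exists_bound (G := G) x
  refine IsCompact.of_isClosed_subset
    (isCompact_univ_pi fun x : Sq D => isCompact_closedBall (0 : ℂ) (C x))
    (sym_isClosed_StSet δ) ?_
  rintro Φ ⟨h1, h2⟩ x -
  rw [mem_closedBall_zero_iff]
  have h := hC x δ Φ h1
  rwa [h2, norm_one, mul_one] at h

/-- convex combinations -/
theorem convex_StSet : Convex ℝ (StSet δ) := by
  rintro Φ ⟨h1, h1'⟩ Ψ ⟨h2, h2'⟩ a b ha hb hab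
  have hv : ∀ x : Sq D, (a • Φ + b • Ψ) x = (a : ℂ) * Φ x + (b : ℂ) * Ψ x := by
    intro x
    rw [Pi.add_apply, Pi.smul_apply, Pi.smul_apply, Complex.real_smul, Complex.real_smul]
  refine ⟨⟨?_, ?_, ?_, ?_⟩, ?_⟩
  · intro x j c d
    rw [hv, hv, hv, h1.add, h2.add]
    ring
  · intro x j c d
    rw [hv, hv, h1.smul, h2.smul]
    ring
  · intro n x c
    obtain ⟨r, hr, e1⟩ := h1.pos n x c
    obtain ⟨s, hs, e2⟩ := h2.pos n x c
    refine ⟨a * r + b * s, by positivity, ?_⟩
    push_cast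
    rw [← e1, ← e2, Finset.mul_sum, Finset.mul_sum, ← Finset.sum_add_distrib]
    refine Finset.sum_congr rfl fun i _ => ?_
    rw [Finset.mul_sum, Finset.mul_sum, ← Finset.sum_add_distrib]
    refine Finset.sum_congr rfl fun j _ => ?_
    rw [hv]
    ring
  · intro z x y
    have e1 := h1.avg z x y
    have e2 := h2.avg z x y
    have e3 : ∑ g, ∑ h, ((a • Φ + b • Ψ) (z * Sq.act (δ g) x * Sq.act (δ h) y) -
        (a • Φ + b • Ψ) (z * Sq.act (δ h) y * Sq.act (δ g) x)) =
        (a : ℂ) * (∑ g, ∑ h, (Φ (z * Sq.act (δ g) x * Sq.act (δ h) y) -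
          Φ (z * Sq.act (δ h) y * Sq.act (δ g) x))) +
        (b : ℂ) * (∑ g, ∑ h, (Ψ (z * Sq.act (δ g) x * Sq.act (δ h) y) -
          Ψ (z * Sq.act (δ h) y * Sq.act (δ g) x))) := by
      rw [Finset.mul_sum, Finset.mul_sum, ← Finset.sum_add_distrib]
      refine Finset.sum_congr rfl fun i _ => ?_
      rw [Finset.mul_sum, Finset.mul_sum, ← Finset.sum_add_distrib]
      refine Finset.sum_congr rfl fun j _ => ?_
      rw [hv, hv]
      ring
    rw [e3, e1, e2, mul_zero, mul_zero, add_zero]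
  · rw [hv, h1', h2', mul_one, mul_one, ← Complex.ofReal_add, hab, Complex.ofReal_one]

/-- `Φ ∘ perm π` is again in `StSet δ` (`perm π` is multiplicative, commutes with `st` and `act`, and
`perm π (upd x j a) = upd (perm π x) (π⁻¹ j) a`). -/
theorem StSet_perm {Φ : Sq D → ℂ} (h : Φ ∈ StSet δ) (π : Equiv.Perm ℕ) :
    (fun x => Φ (Sq.perm π x)) ∈ StSet δ := by
  obtain ⟨h1, h2⟩ := h
  have hupd : ∀ (x : Sq D) (j : ℕ) (a : D),
      Sq.perm π (Sq.upd x j a) = Sq.upd (Sq.perm π x) (π.symm j) a := by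
    intro x j a
    refine Sq.ext fun n => ?_
    rw [Sq.perm_apply, Sq.upd_apply, Sq.upd_apply, Sq.perm_apply]
    by_cases hn : π n = j
    · rw [if_pos hn, if_pos (by rw [← hn, Equiv.symm_apply_apply])]
    · rw [if_neg hn, if_neg (fun h => hn (by rw [h, Equiv.apply_symm_apply]))]
  have hmul : ∀ x y : Sq D, Sq.perm π (x * y) = Sq.perm π x * Sq.perm π y := fun x y =>
    Sq.ext fun n => rfl
  have hst : ∀ x : Sq D, Sq.perm π (Sq.st x) = Sq.st (Sq.perm π x) := fun x =>
    Sq.ext fun n => rfl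
  have hact : ∀ (s : D ≃⋆ₐ[ℂ] D) (x : Sq D), Sq.perm π (Sq.act s x) = Sq.act s (Sq.perm π x) :=
    fun s x => Sq.ext fun n => rfl
  have hone : Sq.perm π (1 : Sq D) = 1 := Sq.ext fun n => rfl
  refine ⟨⟨?_, ?_, ?_, ?_⟩, ?_⟩
  · intro x j a b
    simp only [hupd]
    exact h1.add _ _ _ _
  · intro x j c a
    simp only [hupd]
    exact h1.smul _ _ _ _
  · intro n x c
    simp only [hmul, hst]
    exact h1.pos n (fun i => Sq.perm π (x i)) c
  · intro z x y
    simp only [hmul, hact]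
    exact h1.avg _ _ _
  · change Φ (Sq.perm π 1) = 1
    rw [hone, h2]

end P095E
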