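import Mathlib
import Vale.Agent.Lib.P095E.SeqSym

/-!
# P095, module A3b: existence of a symmetric element
-/

open scoped Topology
open Filter

namespace P095E

universe u v

variable {D : Type u} [CStarAlgebra D] {G : Type v} [Group G] [Fintype G]
  (δ : G →* (D ≃⋆ₐ[ℂ] D))

/-- every permutation acts on a given `x` like a permutation fixing all large `k` -/
theorem ssb_perm_fin (π : Equiv.Perm ℕ) (x : Sq D) :
    ∃ (n : ℕ) (π' : Equiv.Perm ℕ), (∀ k, n ≤ k → π' k = k) ∧ Sq.perm π x = Sq.perm π' x := by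
  classical
  have hT : (Function.mulSupport (Sq.perm π x).1).Finite := (Sq.perm π x).2
  have hS : (Function.mulSupport x.1).Finite := x.2
  obtain ⟨n, hn⟩ := (hS.union hT).bddAbove
  have h1 : ∀ k, n < k → x.1 k = 1 := by
    intro k hk
    by_contra hne
    exact absurd (hn (Or.inl hne)) (not_le.2 hk)
  have h2 : ∀ k, n < k → x.1 (π k) = 1 := by
    intro k hk
    by_contra hne
    exact absurd (hn (Or.inr hne)) (not_le.2 hk)
  have : Finite {k : ℕ // k < n + 1} := (Set.finite_lt_nat (n + 1)).to_subtype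
  let e : {k : {k : ℕ // k < n + 1} // x.1 (π k.1) ≠ 1} ≃
      {k : {k : ℕ // k < n + 1} // x.1 k.1 ≠ 1} :=
    { toFun := fun k => ⟨⟨π k.1.1, by
        by_contra hc
        exact k.2 (h1 _ (by omega))⟩, k.2⟩
      invFun := fun k => ⟨⟨π.symm k.1.1, by
        by_contra hc
        have := h2 (π.symm k.1.1) (by omega)
        rw [Equiv.apply_symm_apply] at this
        exact k.2 this⟩, by
          change x.1 (π (π.symm k.1.1)) ≠ 1
          rw [Equiv.apply_symm_apply]
          exact k.2⟩
      left_inv := fun k => by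
        apply Subtype.ext
        apply Subtype.ext
        exact π.symm_apply_apply _
      right_inv := fun k => by
        apply Subtype.ext
        apply Subtype.ext
        exact π.apply_symm_apply _ }
  refine ⟨n + 1, Equiv.Perm.ofSubtype e.extendSubtype, fun k hk => ?_, Sq.ext fun k => ?_⟩
  · exact Equiv.Perm.ofSubtype_apply_of_not_mem (p := fun k : ℕ => k < n + 1) _ (not_lt.2 hk)
  · rw [Sq.perm_apply, Sq.perm_apply]
    by_cases hk : k < n + 1
    · rw [Equiv.Perm.ofSubtype_apply_of_mem (p := fun k : ℕ => k < n + 1) e.extendSubtype hk]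
      by_cases hx : x.1 (π k) ≠ 1
      · rw [Equiv.extendSubtype_apply_of_mem e ⟨k, hk⟩ hx]
        rfl
      · have h3 := Equiv.extendSubtype_not_mem e ⟨k, hk⟩ hx
        rw [not_not] at h3 hx
        rw [h3, hx]
    · rw [Equiv.Perm.ofSubtype_apply_of_not_mem (p := fun k : ℕ => k < n + 1) e.extendSubtype hk,
        h1 k (by omega), h2 k (by omega)]

/-- `perm` is an anti-action -/
theorem ssb_perm_perm (π π' : Equiv.Perm ℕ) (x : Sq D) :
    Sq.perm π (Sq.perm π' x) = Sq.perm (π' * π) x := rfl

/-- averaging over a finite group of permutations -/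
theorem ssb_avg (h : (StSet δ).Nonempty) (n : ℕ) :
    ∃ Φ ∈ StSet δ, ∀ π : Equiv.Perm ℕ, (∀ k, n ≤ k → π k = k) → ∀ x, Φ (Sq.perm π x) = Φ x := by
  classical
  obtain ⟨Φ, hΦ⟩ := h
  have : Finite {k : ℕ // k < n} := (Set.finite_lt_nat n).to_subtype
  have : Fintype (Equiv.Perm {k : ℕ // k < n}) := Fintype.ofFinite _
  set N : ℝ := (Fintype.card (Equiv.Perm {k : ℕ // k < n}) : ℝ) with hN
  have hN0 : 0 < N := by
    rw [hN]
    exact_mod_cast Fintype.card_pos
  refine ⟨∑ σ : Equiv.Perm {k : ℕ // k < n}, N⁻¹ • fun x => Φ (Sq.perm (Equiv.Perm.ofSubtype σ) x),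
    ?_, ?_⟩
  · refine (convex_StSet δ).sum_mem (fun _ _ => by positivity) ?_ fun σ _ => StSet_perm δ hΦ _
    rw [Finset.sum_const, Finset.card_univ, nsmul_eq_mul, ← hN, mul_inv_cancel₀ hN0.ne']
  · intro π hπ x
    have hp : ∀ k, π k < n ↔ k < n := by
      intro k
      constructor
      · intro hk
        by_contra hc
        rw [hπ k (not_lt.1 hc)] at hk
        exact hc hk
      · intro hk
        by_contra hc
        have h1 : π (π k) = π k := hπ _ (not_lt.1 hc)
        have h2 : π k = k := π.injective h1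
        omega
    have hq : ∀ k, π k ≠ k → k < n := by
      intro k hk
      by_contra hc
      exact hk (hπ k (not_lt.1 hc))
    have hof := Equiv.Perm.ofSubtype_subtypePerm (f := π) hp hq
    set τ : Equiv.Perm {k : ℕ // k < n} := π.subtypePerm hp with hτ
    rw [Finset.sum_apply, Finset.sum_apply]
    refine Fintype.sum_equiv (Equiv.mulLeft τ) _ _ fun σ => ?_
    simp only [Pi.smul_apply, Equiv.coe_mulLeft]
    rw [ssb_perm_perm, map_mul, hof]

/-- If `StSet δ` is nonempty it contains a symmetric element.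

Proof.  For `n : ℕ` let `P_n` be the finite subgroup of the permutations `π` of `ℕ` with `π k = k`
for `k ≥ n` (e.g. the range of the group homomorphism `Equiv.Perm (Fin n) → Equiv.Perm ℕ`,
`Equiv.Perm.viaFintypeEmbedding` or `Equiv.Perm.extendDomainHom`, or
`Equiv.Perm.viaEmbedding (e := Fin.valEmbedding)`), and
`C_n = {Φ ∈ StSet δ | ∀ π ∈ P_n, ∀ x, Φ (perm π x) = Φ x}`.  The `C_n` are decreasing, closed
subsets of the compact set `StSet δ`, and nonempty: the average of the functions
`x ↦ Φ (perm π x)` over `π ∈ P_n` (a finite group) is in `StSet δ` by convexity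
(`Convex.sum_mem` / `Finset.centerMass`) and `StSet_perm`, and is invariant under `P_n`
(`perm π (perm π' x) = perm (π' * π) x` or the like; reindex the sum over the finite group).
By compactness (`IsCompact.nonempty_iInter_of_sequence_nonempty_isCompact_isClosed`) there is `Φ` in
all `C_n`.  For an arbitrary permutation `π` of `ℕ` and `x : Sq D`: the sequences `x` and `perm π x`
have finite support, and there is a permutation `π'` in some `P_n` with `perm π x = perm π' x`:
let `S = {k | x_k ≠ 1}` (finite), `T = π⁻¹(S)`; the bijection `π : T → S` between finite subsets of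
`{0, …, n-1}` extends to a permutation of `{0, …, n-1}` (e.g.
`Function.Embedding`/`Equiv.extendSubtype`, `Equiv.Perm.extendSubtype`,
`Function.Injective.extend...`; `Equiv.extendSubtype` extends an equivalence between subtypes of
a fintype), which maps the complement of `T` to the complement of `S`, where the values are `1`. -/
theorem exists_symm (h : (StSet δ).Nonempty) : ∃ Φ ∈ StSet δ, Symm Φ := by
  classical
  let C : ℕ → Set (Sq D → ℂ) := fun n =>
    StSet δ ∩ {Φ | ∀ π : Equiv.Perm ℕ, (∀ k, n ≤ k → π k = k) → ∀ x, Φ (Sq.perm π x) = Φ x}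
  have hcl : ∀ n, IsClosed (C n) := by
    intro n
    refine (isCompact_StSet δ).isClosed.inter ?_
    have hset : {Φ : Sq D → ℂ | ∀ π : Equiv.Perm ℕ, (∀ k, n ≤ k → π k = k) →
        ∀ x, Φ (Sq.perm π x) = Φ x} =
        ⋂ (π : Equiv.Perm ℕ), ⋂ (_ : ∀ k, n ≤ k → π k = k), ⋂ (x : Sq D),
          {Φ : Sq D → ℂ | Φ (Sq.perm π x) = Φ x} := by
      ext Φ
      simp only [Set.mem_iInter, Set.mem_ofPred_eq]
    rw [hset]
    exact isClosed_iInter fun π => isClosed_iInter fun _ => isClosed_iInter fun x =>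
      isClosed_eq (continuous_apply _) (continuous_apply _)
  have hmono : ∀ n, C (n + 1) ⊆ C n := fun n Φ hΦ =>
    ⟨hΦ.1, fun π hπ => hΦ.2 π fun k hk => hπ k (by omega)⟩
  have hne : ∀ n, (C n).Nonempty := by
    intro n
    obtain ⟨Φ, h1, h2⟩ := ssb_avg δ h n
    exact ⟨Φ, h1, h2⟩
  obtain ⟨Φ, hΦ⟩ := IsCompact.nonempty_iInter_of_sequence_nonempty_isCompact_isClosed C hmono hne
    ((isCompact_StSet δ).of_isClosed_subset (hcl 0) Set.inter_subset_left) hcl
  rw [Set.mem_iInter] at hΦ
  refine ⟨Φ, (hΦ 0).1, fun π x => ?_⟩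
  obtain ⟨n, π', hπ', he⟩ := ssb_perm_fin π x
  rw [he]
  exact (hΦ n).2 π' hπ' x

end P095E
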