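import Mathlib
import Vale.Agent.Lib.P095E.SeqCons
import Vale.Agent.Lib.P095E.SeqSymB

/-!
# P095, module A4: an extreme symmetric element is a product
-/

open scoped Topology
open Filter

namespace P095E

universe u v

variable {D : Type u} [CStarAlgebra D] {G : Type v} [Group G] [Fintype G]
  (δ : G →* (D ≃⋆ₐ[ℂ] D))

/-- a nonnegative multiple of an `IsSt` function -/
theorem IsSt.nonneg_smul {δ : G →* (D ≃⋆ₐ[ℂ] D)} {Φ : Sq D → ℂ} (h : IsSt δ Φ) {t : ℝ}
    (ht : 0 ≤ t) : IsSt δ (fun x => (t : ℂ) * Φ x) where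
  add x j a b := by
    rw [h.add]
    ring
  smul x j c a := by
    rw [h.smul]
    ring
  pos n x c := by
    obtain ⟨r, hr, he⟩ := h.pos n x c
    refine ⟨t * r, mul_nonneg ht hr, ?_⟩
    rw [Complex.ofReal_mul, ← he, Finset.mul_sum]
    refine Finset.sum_congr rfl fun i _ => ?_
    rw [Finset.mul_sum]
    refine Finset.sum_congr rfl fun j _ => ?_
    ring
  avg z x y := by
    have h1 := h.avg z x y
    have h2 : ∑ g, ∑ k, ((t : ℂ) * Φ (z * Sq.act (δ g) x * Sq.act (δ k) y) -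
        (t : ℂ) * Φ (z * Sq.act (δ k) y * Sq.act (δ g) x)) =
        (t : ℂ) * ∑ g, ∑ k, (Φ (z * Sq.act (δ g) x * Sq.act (δ k) y) -
        Φ (z * Sq.act (δ k) y * Sq.act (δ g) x)) := by
      rw [Finset.mul_sum]
      refine Finset.sum_congr rfl fun i _ => ?_
      rw [Finset.mul_sum]
      refine Finset.sum_congr rfl fun j _ => ?_
      ring
    rw [h2, h1, mul_zero]

/-- `Φ 1` is a nonnegative real -/
theorem IsSt.one_nonneg {δ : G →* (D ≃⋆ₐ[ℂ] D)} {Φ : Sq D → ℂ} (h : IsSt δ Φ) :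
    ∃ r : ℝ, 0 ≤ r ∧ Φ 1 = (r : ℂ) := by
  obtain ⟨r, hr, he⟩ := h.pos 1 (fun _ => 1) (fun _ => 1)
  refine ⟨r, hr, ?_⟩
  rw [← he]
  have h1 : Sq.st (1 : Sq D) * 1 = 1 := by
    apply Sq.ext
    intro n
    rw [Sq.mul_apply, Sq.st_apply, Sq.one_apply, star_one, mul_one]
  simp [h1]

theorem extreme_product {Φ : Sq D → ℂ}
    (hΦ : Φ ∈ Set.extremePoints ℝ {Ψ : Sq D → ℂ | Ψ ∈ StSet δ ∧ Symm Ψ}) (b c : D)
    (hbc : star b * b + star c * c = 1) (x : Sq D) :
    Φ (Sq.cons (star b * b) x) = Φ (Sq.cons (star b * b) 1) * Φ x := by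
  obtain ⟨⟨⟨hst, hone⟩, hsym⟩, hext⟩ := hΦ
  have hb := hst.cons b
  have hc := hst.cons c
  have hbs := hsym.cons (star b * b)
  have hcs := hsym.cons (star c * c)
  have hsum : ∀ y : Sq D, Φ (Sq.cons (star b * b) y) + Φ (Sq.cons (star c * c) y) = Φ y := by
    intro y
    have h1 := hst.add (Sq.cons 1 y) 0 (star b * b) (star c * c)
    rw [Sq.upd_cons_zero, Sq.upd_cons_zero, Sq.upd_cons_zero, hbc, hsym.cons_one] at h1
    exact h1.symm
  obtain ⟨t, ht, hte⟩ := hb.one_nonneg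
  obtain ⟨t', ht', hte'⟩ := hc.one_nonneg
  have htt : t + t' = 1 := by
    have h1 := hsum 1
    have h2 : Φ (Sq.cons (star b * b) 1) = (t : ℂ) := hte
    have h3 : Φ (Sq.cons (star c * c) 1) = (t' : ℂ) := hte'
    rw [h2, h3, hone] at h1
    exact_mod_cast h1
  have h2 : Φ (Sq.cons (star b * b) 1) = (t : ℂ) := hte
  have h3 : Φ (Sq.cons (star c * c) 1) = (t' : ℂ) := hte'
  rcases ht.eq_or_lt with h0 | h0
  · -- `Φ_a = 0`
    obtain ⟨C, hC⟩ := exists_bound (G := G) x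
    have h4 := hC δ _ hb
    rw [h2, ← h0] at h4 ⊢
    simp only [Complex.ofReal_zero, norm_zero, mul_zero, zero_mul] at h4 ⊢
    exact norm_le_zero_iff.mp h4
  rcases ht'.eq_or_lt with h0' | h0'
  · obtain ⟨C, hC⟩ := exists_bound (G := G) x
    have h4 := hC δ _ hc
    rw [h3, ← h0'] at h4
    simp only [Complex.ofReal_zero, norm_zero, mul_zero] at h4
    have h5 : Φ (Sq.cons (star c * c) x) = 0 := norm_le_zero_iff.mp h4
    have h6 : t = 1 := by linarith
    have h7 := hsum x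
    rw [h5, add_zero] at h7
    rw [h2, h6, h7, Complex.ofReal_one, one_mul]
  · have hK1 : (fun y : Sq D => ((t⁻¹ : ℝ) : ℂ) * Φ (Sq.cons (star b * b) y)) ∈
        {Ψ : Sq D → ℂ | Ψ ∈ StSet δ ∧ Symm Ψ} := by
      refine ⟨⟨hb.nonneg_smul (inv_nonneg.mpr ht), ?_⟩, ?_⟩
      · show ((t⁻¹ : ℝ) : ℂ) * Φ (Sq.cons (star b * b) 1) = 1
        rw [h2, ← Complex.ofReal_mul, inv_mul_cancel₀ h0.ne', Complex.ofReal_one]
      · intro π y
        have h8 := hbs π y
        simp only at h8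
        show ((t⁻¹ : ℝ) : ℂ) * _ = ((t⁻¹ : ℝ) : ℂ) * _
        rw [h8]
    have hK2 : (fun y : Sq D => ((t'⁻¹ : ℝ) : ℂ) * Φ (Sq.cons (star c * c) y)) ∈
        {Ψ : Sq D → ℂ | Ψ ∈ StSet δ ∧ Symm Ψ} := by
      refine ⟨⟨hc.nonneg_smul (inv_nonneg.mpr ht'), ?_⟩, ?_⟩
      · show ((t'⁻¹ : ℝ) : ℂ) * Φ (Sq.cons (star c * c) 1) = 1
        rw [h3, ← Complex.ofReal_mul, inv_mul_cancel₀ h0'.ne', Complex.ofReal_one]
      · intro π y
        have h8 := hcs π y
        simp only at h8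
        show ((t'⁻¹ : ℝ) : ℂ) * _ = ((t'⁻¹ : ℝ) : ℂ) * _
        rw [h8]
    have hseg : Φ ∈ openSegment ℝ
        (fun y : Sq D => ((t⁻¹ : ℝ) : ℂ) * Φ (Sq.cons (star b * b) y))
        (fun y : Sq D => ((t'⁻¹ : ℝ) : ℂ) * Φ (Sq.cons (star c * c) y)) := by
      refine ⟨t, t', h0, h0', htt, ?_⟩
      funext y
      simp only [Pi.add_apply, Pi.smul_apply, Complex.real_smul]
      rw [← mul_assoc, ← mul_assoc, ← Complex.ofReal_mul, ← Complex.ofReal_mul,
        mul_inv_cancel₀ h0.ne', mul_inv_cancel₀ h0'.ne', Complex.ofReal_one, one_mul, one_mul]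
      exact hsum y
    have heq := hext hK1 hK2 hseg
    have h9 : ((t⁻¹ : ℝ) : ℂ) * Φ (Sq.cons (star b * b) x) = Φ x := congrFun heq x
    rw [h2, ← h9, ← mul_assoc, ← Complex.ofReal_mul, mul_inv_cancel₀ h0.ne',
      Complex.ofReal_one, one_mul]

theorem isClosed_symm : IsClosed {Ψ : Sq D → ℂ | Symm Ψ} := by
  have he : {Ψ : Sq D → ℂ | Symm Ψ} =
      ⋂ (π : Equiv.Perm ℕ) (x : Sq D), {Ψ : Sq D → ℂ | Ψ (Sq.perm π x) = Ψ x} := by
    ext Ψ
    simp only [Set.mem_iInter]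
    rfl
  rw [he]
  exact isClosed_iInter fun π => isClosed_iInter fun x =>
    isClosed_eq (continuous_apply _) (continuous_apply _)

attribute [local instance] CStarAlgebra.spectralOrder CStarAlgebra.spectralOrderedRing

/-- **Product elements exist.**

Proof.  Let `K = {Φ ∈ StSet δ | Symm Φ}`: nonempty (`exists_symm`), compact (closed subset of the
compact set `StSet δ`), convex, in the locally convex Hausdorff space `Sq D → ℂ` (as a real vector
space).  By the Krein-Milman lemma `IsCompact.extremePoints_nonempty` there is an extreme point `Φ`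
of `K`.  Let `a : D` with `0 ≤ a ≤ 1`, i.e. `a = star b * b`, `1 - a = star c * c`, and
`Φ_a x = Φ (cons a x)`.  `Φ_a + Φ_{1-a} = Φ` because `Φ (cons a x) + Φ (cons (1 - a) x) = Φ (cons 1 x)`
(`IsSt.add` with `Sq.upd_cons_zero`) `= Φ x` (`Symm.cons_one`).  Both are `IsSt` and symmetric
(`IsSt.cons`, `Symm.cons`), `t = Φ_a 1 = Φ (cons a 1)` is real, `0 ≤ t ≤ 1`, `Φ_{1-a} 1 = 1 - t`.
If `t = 0` then `Φ_a = 0` by `exists_bound`; if `t = 1` then `Φ_{1-a} = 0`, so `Φ_a = Φ`;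
if `0 < t < 1` then `Φ = t (Φ_a / t) + (1-t) (Φ_{1-a} / (1-t))` with both in `K` (a positive multiple of
an `IsSt` function is `IsSt`), so `Φ_a / t = Φ` by extremality.  In all cases
`Φ (cons a x) = Φ (cons a 1) Φ x`.  Both sides are linear in `a` (`IsSt.add`, `IsSt.smul` with
`Sq.upd_cons_zero`), so this holds for all `a` by scaling and because the nonnegative elements span
`D` (`CStarAlgebra.span_nonneg`). -/
theorem exists_product (h : (StSet δ).Nonempty) :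
    ∃ Φ ∈ StSet δ, ∀ (a : D) (x : Sq D), Φ (Sq.cons a x) = Φ (Sq.cons a 1) * Φ x := by
  have hcomp : IsCompact {Ψ : Sq D → ℂ | Ψ ∈ StSet δ ∧ Symm Ψ} :=
    (isCompact_StSet δ).inter_right isClosed_symm
  have hne : {Ψ : Sq D → ℂ | Ψ ∈ StSet δ ∧ Symm Ψ}.Nonempty := exists_symm δ h
  obtain ⟨Φ, hΦ⟩ := hcomp.extremePoints_nonempty hne
  have hst : IsSt δ Φ := hΦ.1.1.1
  refine ⟨Φ, hΦ.1.1, fun a x => ?_⟩
  have hadd : ∀ (y : Sq D) (u v : D), Φ (Sq.cons (u + v) y) = Φ (Sq.cons u y) + Φ (Sq.cons v y) := by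
    intro y u v
    have h1 := hst.add (Sq.cons 1 y) 0 u v
    rwa [Sq.upd_cons_zero, Sq.upd_cons_zero, Sq.upd_cons_zero] at h1
  have hsmul : ∀ (y : Sq D) (c : ℂ) (u : D), Φ (Sq.cons (c • u) y) = c * Φ (Sq.cons u y) := by
    intro y c u
    have h1 := hst.smul (Sq.cons 1 y) 0 c u
    rwa [Sq.upd_cons_zero, Sq.upd_cons_zero] at h1
  have hmem : a ∈ Submodule.span ℂ ({x : D | 0 ≤ x} ∩ Metric.closedBall 0 1) := by
    rw [CStarAlgebra.span_nonneg_inter_unitClosedBall]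
    exact Submodule.mem_top
  induction hmem using Submodule.span_induction with
  | mem a ha =>
    obtain ⟨ha0, ha1⟩ := ha
    have ha0' : 0 ≤ a := ha0
    have ha1' : a ≤ 1 := by
      rw [← CStarAlgebra.norm_le_one_iff_of_nonneg a ha0']
      simpa using ha1
    obtain ⟨b, hb⟩ := CStarAlgebra.nonneg_iff_eq_star_mul_self.mp ha0'
    obtain ⟨c, hc⟩ := CStarAlgebra.nonneg_iff_eq_star_mul_self.mp (sub_nonneg.mpr ha1')
    rw [hb]
    apply extreme_product δ hΦ b c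
    rw [← hb, ← hc]
    abel
  | zero =>
    have h0 : ∀ y : Sq D, Φ (Sq.cons 0 y) = 0 := by
      intro y
      have h1 := hsmul y 0 0
      rwa [zero_smul, zero_mul] at h1
    rw [h0, h0, zero_mul]
  | add u v _ _ hu hv => rw [hadd, hadd, hu, hv, add_mul]
  | smul c u _ hu => rw [hsmul, hsmul, hu, mul_assoc]

end P095E
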