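import Mathlib
import Vale.Agent.Lib.P095E.SeqDefs

/-!
# P095, module A5a: the weighted averaged relation
-/

open scoped Topology
open Filter

namespace P095E

universe u v

variable {D : Type u} [CStarAlgebra D] {G : Type v} [Group G] [Fintype G]
  (δ : G →* (D ≃⋆ₐ[ℂ] D))

/-- the weighted averaged commutation relation -/
def QRel (Φ : Sq D → ℂ) (f₁ f₂ : G → ℂ) : Prop :=
  ∀ z x y : Sq D, ∑ g, ∑ h, f₁ g * f₂ h * (Φ (z * Sq.act (δ g) x * Sq.act (δ h) y) -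
    Φ (z * Sq.act (δ h) y * Sq.act (δ g) x)) = 0

/-- the set of the matrix coefficient functions `g ↦ ω(r δ_g(p))`, `ω(a) = Φ(a, 1, 1, …)` -/
def coefSet (Φ : Sq D → ℂ) : Set (G → ℂ) :=
  Set.range fun q : D × D => fun g : G => Φ (Sq.cons (q.2 * δ g q.1) 1)

variable {δ}

private theorem seqProdA_add_left {Φ : Sq D → ℂ} {f f' f₂ : G → ℂ} (h : QRel δ Φ f f₂)
    (h' : QRel δ Φ f' f₂) : QRel δ Φ (f + f') f₂ := by
  intro z x y
  have h1 := h z x y
  have h2 := h' z x y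
  have h3 := congrArg₂ (· + ·) h1 h2
  simp only [add_zero, ← Finset.sum_add_distrib] at h3
  rw [← h3]
  refine Finset.sum_congr rfl fun g _ => Finset.sum_congr rfl fun k _ => ?_
  rw [Pi.add_apply]
  ring

private theorem seqProdA_add_right {Φ : Sq D → ℂ} {f f' f₁ : G → ℂ} (h : QRel δ Φ f₁ f)
    (h' : QRel δ Φ f₁ f') : QRel δ Φ f₁ (f + f') := by
  intro z x y
  have h1 := h z x y
  have h2 := h' z x y
  have h3 := congrArg₂ (· + ·) h1 h2
  simp only [add_zero, ← Finset.sum_add_distrib] at h3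
  rw [← h3]
  refine Finset.sum_congr rfl fun g _ => Finset.sum_congr rfl fun k _ => ?_
  rw [Pi.add_apply]
  ring

private theorem seqProdA_smul_left {Φ : Sq D → ℂ} {f f₂ : G → ℂ} (c : ℂ) (h : QRel δ Φ f f₂) :
    QRel δ Φ (f * algebraMap ℂ (G → ℂ) c) f₂ := by
  intro z x y
  have h1 := congrArg (c * ·) (h z x y)
  simp only [mul_zero, Finset.mul_sum] at h1
  rw [← h1]
  refine Finset.sum_congr rfl fun g _ => Finset.sum_congr rfl fun k _ => ?_
  rw [Pi.mul_apply, Pi.algebraMap_apply]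
  simp only [Algebra.algebraMap_self, RingHom.id_apply]
  ring

private theorem seqProdA_smul_right {Φ : Sq D → ℂ} {f f₁ : G → ℂ} (c : ℂ) (h : QRel δ Φ f₁ f) :
    QRel δ Φ f₁ (f * algebraMap ℂ (G → ℂ) c) := by
  intro z x y
  have h1 := congrArg (c * ·) (h z x y)
  simp only [mul_zero, Finset.mul_sum] at h1
  rw [← h1]
  refine Finset.sum_congr rfl fun g _ => Finset.sum_congr rfl fun k _ => ?_
  rw [Pi.mul_apply, Pi.algebraMap_apply]
  simp only [Algebra.algebraMap_self, RingHom.id_apply]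
  ring

private theorem seqProdA_coef_left {Φ : Sq D → ℂ}
    (hp : ∀ (a : D) (x : Sq D), Φ (Sq.cons a x) = Φ (Sq.cons a 1) * Φ x) {f₁ f₂ f : G → ℂ}
    (hf : f ∈ coefSet δ Φ) (h : QRel δ Φ f₁ f₂) : QRel δ Φ (f₁ * f) f₂ := by
  obtain ⟨⟨p, r⟩, rfl⟩ := hf
  intro z x y
  rw [← h (Sq.cons r z) (Sq.cons p x) (Sq.cons 1 y)]
  refine Finset.sum_congr rfl fun g _ => Finset.sum_congr rfl fun k _ => ?_
  rw [Pi.mul_apply, Sq.act_cons, Sq.act_cons, map_one, Sq.cons_mul, Sq.cons_mul, Sq.cons_mul,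
    Sq.cons_mul, mul_one, mul_one, hp (r * δ g p) (z * Sq.act (δ g) x * Sq.act (δ k) y),
    hp (r * δ g p) (z * Sq.act (δ k) y * Sq.act (δ g) x)]
  ring

private theorem seqProdA_coef_right {Φ : Sq D → ℂ}
    (hp : ∀ (a : D) (x : Sq D), Φ (Sq.cons a x) = Φ (Sq.cons a 1) * Φ x) {f₁ f₂ f : G → ℂ}
    (hf : f ∈ coefSet δ Φ) (h : QRel δ Φ f₁ f₂) : QRel δ Φ f₁ (f₂ * f) := by
  obtain ⟨⟨p, r⟩, rfl⟩ := hf
  intro z x y
  rw [← h (Sq.cons r z) (Sq.cons 1 x) (Sq.cons p y)]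
  refine Finset.sum_congr rfl fun g _ => Finset.sum_congr rfl fun k _ => ?_
  rw [Pi.mul_apply, Sq.act_cons, Sq.act_cons, map_one, Sq.cons_mul, Sq.cons_mul, Sq.cons_mul,
    Sq.cons_mul, mul_one, mul_one, hp (r * δ k p) (z * Sq.act (δ g) x * Sq.act (δ k) y),
    hp (r * δ k p) (z * Sq.act (δ k) y * Sq.act (δ g) x)]
  ring

private theorem seqProdA_left {Φ : Sq D → ℂ}
    (hp : ∀ (a : D) (x : Sq D), Φ (Sq.cons a x) = Φ (Sq.cons a 1) * Φ x) {f₂ f : G → ℂ}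
    (hf : f ∈ Algebra.adjoin ℂ (coefSet δ Φ)) :
    ∀ f₁ : G → ℂ, QRel δ Φ f₁ f₂ → QRel δ Φ (f₁ * f) f₂ := by
  induction hf using Algebra.adjoin_induction with
  | mem f hf => exact fun f₁ h => seqProdA_coef_left hp hf h
  | algebraMap c => exact fun f₁ h => seqProdA_smul_left c h
  | add f f' _ _ ih ih' =>
    intro f₁ h
    rw [mul_add]
    exact seqProdA_add_left (ih f₁ h) (ih' f₁ h)
  | mul f f' _ _ ih ih' =>
    intro f₁ h
    rw [← mul_assoc]
    exact ih' _ (ih f₁ h)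

private theorem seqProdA_right {Φ : Sq D → ℂ}
    (hp : ∀ (a : D) (x : Sq D), Φ (Sq.cons a x) = Φ (Sq.cons a 1) * Φ x) {f₁ f : G → ℂ}
    (hf : f ∈ Algebra.adjoin ℂ (coefSet δ Φ)) :
    ∀ f₂ : G → ℂ, QRel δ Φ f₁ f₂ → QRel δ Φ f₁ (f₂ * f) := by
  induction hf using Algebra.adjoin_induction with
  | mem f hf => exact fun f₂ h => seqProdA_coef_right hp hf h
  | algebraMap c => exact fun f₂ h => seqProdA_smul_right c h
  | add f f' _ _ ih ih' =>
    intro f₂ h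
    rw [mul_add]
    exact seqProdA_add_right (ih f₂ h) (ih' f₂ h)
  | mul f f' _ _ ih ih' =>
    intro f₂ h
    rw [← mul_assoc]
    exact ih' _ (ih f₂ h)

/-- **Module A5a.**  Proof: `QRel Φ 1 1` is `IsSt.avg`.  If `QRel Φ f₁ f₂` and
`f = (g ↦ Φ(cons (r * δ g p) 1))` then `QRel Φ (f₁ * f) f₂`: apply `QRel Φ f₁ f₂` to `cons r z`,
`cons p x`, `cons 1 y`:
`cons r z * act (δ g) (cons p x) * act (δ h) (cons 1 y) = cons (r * δ g p) (z * act _ x * act _ y)`
and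
`cons r z * act (δ h) (cons 1 y) * act (δ g) (cons p x) = cons (r * δ g p) (z * act _ y * act _ x)`,
and use the product formula.  Similarly in the second variable (`cons r z`, `cons 1 x`,
`cons p y`).  For fixed `f₂` the set of `f₁` with `∀ k, QRel Φ f₁ f₂ → …` is a linear subspace;
conclude by `Algebra.adjoin_induction` (prove first: for `f ∈ adjoin`, for all `f₁`,
`QRel Φ f₁ f₂ → QRel Φ (f₁ * f) f₂`; this is an additive, multiplicative, scalar-closed property of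
`f`). -/
theorem qRel_of_mem_adjoin {Φ : Sq D → ℂ} (h : IsSt δ Φ)
    (hp : ∀ (a : D) (x : Sq D), Φ (Sq.cons a x) = Φ (Sq.cons a 1) * Φ x) {f₁ f₂ : G → ℂ}
    (h₁ : f₁ ∈ Algebra.adjoin ℂ (coefSet δ Φ)) (h₂ : f₂ ∈ Algebra.adjoin ℂ (coefSet δ Φ)) :
    QRel δ Φ f₁ f₂ := by
  have h0 : QRel δ Φ 1 1 := by
    intro z x y
    rw [← h.avg z x y]
    refine Finset.sum_congr rfl fun g _ => Finset.sum_congr rfl fun k _ => ?_
    rw [Pi.one_apply, Pi.one_apply, one_mul, one_mul]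
  have h3 := seqProdA_left hp h₁ 1 h0
  rw [one_mul] at h3
  have h4 := seqProdA_right hp h₂ 1 h3
  rwa [one_mul] at h4

end P095E
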