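import Mathlib

/-!
# P095, module A5b: interpolation on a finite set
-/

open scoped Topology
open Filter

namespace P095E

universe u v

/-- **Module A5b (interpolation).**  Let `S` be a set of functions on a finite set `X` and `x₀ : X`.
The indicator function of `{x | f x = f x₀ for all f ∈ S}` is in the unital algebra generated by
`S`.  Proof: for each `x` with `f_x x ≠ f_x x₀` for some `f_x ∈ S` take the factor
`(f_x - f_x(x)) / (f_x(x₀) - f_x(x))`, for the other `x` the factor `1`; the product over all `x`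
is the indicator function. -/
theorem indicator_mem_adjoin {X : Type v} [Fintype X] [DecidableEq X] (S : Set (X → ℂ)) (x₀ : X) :
    ∃ f ∈ Algebra.adjoin ℂ S, (∀ x, (∀ s ∈ S, s x = s x₀) → f x = 1) ∧
      ∀ x, ¬ (∀ s ∈ S, s x = s x₀) → f x = 0 := by
  classical
  have key : ∀ x : X, ∃ g ∈ Algebra.adjoin ℂ S, (∀ y, (∀ s ∈ S, s y = s x₀) → g y = 1) ∧
      ((¬ ∀ s ∈ S, s x = s x₀) → g x = 0) := by
    intro x
    by_cases hx : ∀ s ∈ S, s x = s x₀
    · exact ⟨1, one_mem _, fun y _ => rfl, fun h => absurd hx h⟩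
    · have hx' : ∃ s ∈ S, s x ≠ s x₀ := by
        by_contra h
        exact hx fun s hs => by
          by_contra h2
          exact h ⟨s, hs, h2⟩
      obtain ⟨s, hs, hne⟩ := hx'
      have hne' : s x₀ - s x ≠ 0 := fun h => hne (sub_eq_zero.1 h).symm
      refine ⟨(s x₀ - s x)⁻¹ • (s - algebraMap ℂ (X → ℂ) (s x)), ?_, ?_, ?_⟩
      · exact Subalgebra.smul_mem _ (sub_mem (Algebra.subset_adjoin hs)
          (Subalgebra.algebraMap_mem _ _)) _
      · intro y hy
        have h1 : (s - algebraMap ℂ (X → ℂ) (s x)) y = s x₀ - s x := by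
          rw [Pi.sub_apply, hy s hs, Pi.algebraMap_apply]
          rfl
        rw [Pi.smul_apply, h1, smul_eq_mul, inv_mul_cancel₀ hne']
      · intro _
        have h1 : (s - algebraMap ℂ (X → ℂ) (s x)) x = 0 := by
          rw [Pi.sub_apply, Pi.algebraMap_apply]
          exact sub_self _
        rw [Pi.smul_apply, h1, smul_zero]
  choose g hg1 hg2 hg3 using key
  refine ⟨∏ x, g x, prod_mem fun x _ => hg1 x, ?_, ?_⟩
  · intro y hy
    rw [Finset.prod_apply]
    exact Finset.prod_eq_one fun x _ => hg2 x y hy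
  · intro x hx
    rw [Finset.prod_apply]
    exact Finset.prod_eq_zero (Finset.mem_univ x) (hg3 x hx)

end P095E
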