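import Mathlib
import Vale.Agent.Lib.P095E.SeqProdA
import Vale.Agent.Lib.P095E.SeqProdB

/-!
# P095, module A5c: a product function vanishes on commutators
-/

open scoped Topology
open Filter

namespace P095E

universe u v

variable {D : Type u} [CStarAlgebra D] {G : Type v} [Group G] [Fintype G]
  {δ : G →* (D ≃⋆ₐ[ℂ] D)}

/-- `ω (a + b) = ω a + ω b` for `ω a = Φ (cons a 1)` -/
private theorem om_add {Φ : Sq D → ℂ} (h : IsSt δ Φ) (a b : D) :
    Φ (Sq.cons (a + b) 1) = Φ (Sq.cons a 1) + Φ (Sq.cons b 1) := by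
  have h1 := h.add (Sq.cons 1 1) 0 a b
  rwa [Sq.upd_cons_zero, Sq.upd_cons_zero, Sq.upd_cons_zero] at h1

private theorem om_smul {Φ : Sq D → ℂ} (h : IsSt δ Φ) (c : ℂ) (a : D) :
    Φ (Sq.cons (c • a) 1) = c * Φ (Sq.cons a 1) := by
  have h1 := h.smul (Sq.cons 1 1) 0 c a
  rwa [Sq.upd_cons_zero, Sq.upd_cons_zero] at h1

private theorem om_sub {Φ : Sq D → ℂ} (h : IsSt δ Φ) (a b : D) :
    Φ (Sq.cons (a - b) 1) = Φ (Sq.cons a 1) - Φ (Sq.cons b 1) := by
  have h1 : a - b = a + (-1 : ℂ) • b := by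
    rw [neg_smul, one_smul, sub_eq_add_neg]
  rw [h1, om_add h, om_smul h]
  ring

/-- **Module A5c.**  A product function vanishes on commutators.

Proof.  Write `ω a = Φ (cons a 1)` (linear, but this is not needed except for `map_sub`:
`ω (a - b) = ω a - ω b` from `IsSt.add`, `IsSt.smul`, `Sq.upd_cons_zero`).  Let
`K = {k : G | ∀ r p, ω (r * δ k p) = ω (r * p)}`.  By `indicator_mem_adjoin` (with `S = coefSet δ Φ`,
`x₀ = 1`, `δ 1 = 1`) the indicator function of `K` is in the adjoined algebra, so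
`qRel_of_mem_adjoin` gives, with `z = cons z 1`, `x = cons u 1`, `y = cons v 1`,
`∑_{k, l ∈ K} (ω (z * δ k u * δ l v) - ω (z * δ l v * δ k u)) = 0`.
`K` is closed under multiplication (`δ (k * l) p = δ k (δ l p)`), contains `1`, so it is closed under
inverses (`k⁻¹ = k ^ (orderOf k - 1)`, or `Subgroup` from a finite submonoid).  For `k, l ∈ K`:
`ω (z * δ k u * δ l v) = ω (z * δ k u * v) = ω (z * δ k (u * δ k⁻¹ v)) = ω (z * (u * δ k⁻¹ v))
= ω (z * u * v)`, and `ω (z * δ l v * δ k u) = ω (z * v * u)` in the same way.  So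
`|K|² (ω (z * u * v) - ω (z * v * u)) = 0` and `1 ∈ K`. -/
theorem product_comm {Φ : Sq D → ℂ} (h : IsSt δ Φ)
    (hp : ∀ (a : D) (x : Sq D), Φ (Sq.cons a x) = Φ (Sq.cons a 1) * Φ x) (z p q : D) :
    Φ (Sq.cons (z * (p * q - q * p)) 1) = 0 := by
  classical
  obtain ⟨f, hf, hf1, hf0⟩ := indicator_mem_adjoin (coefSet δ Φ) (1 : G)
  have hK : ∀ k : G, (∀ s ∈ coefSet δ Φ, s k = s 1) →
      ∀ r a : D, Φ (Sq.cons (r * δ k a) 1) = Φ (Sq.cons (r * a) 1) := by
    intro k hk r a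
    have h1 := hk _ ⟨(a, r), rfl⟩
    simpa using h1
  have hKinv : ∀ k : G, (∀ s ∈ coefSet δ Φ, s k = s 1) →
      ∀ r a : D, Φ (Sq.cons (r * δ k⁻¹ a) 1) = Φ (Sq.cons (r * a) 1) := by
    intro k hk r a
    have h1 := hK k hk r (δ k⁻¹ a)
    have h2 : δ k (δ k⁻¹ a) = a := by
      rw [map_inv]
      exact (δ k).apply_symm_apply a
    rw [h2] at h1
    exact h1.symm
  have key : ∀ g k : G, (∀ s ∈ coefSet δ Φ, s g = s 1) → (∀ s ∈ coefSet δ Φ, s k = s 1) →
      ∀ a b : D, Φ (Sq.cons (z * δ g a * δ k b) 1) = Φ (Sq.cons (z * a * b) 1) := by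
    intro g k hg hk a b
    rw [hK k hk]
    have h2 : δ g (a * δ g⁻¹ b) = δ g a * b := by
      rw [map_mul]
      congr 1
      rw [map_inv]
      exact (δ g).apply_symm_apply b
    rw [mul_assoc, ← h2, hK g hg, ← mul_assoc, hKinv g hg]
  have hq := qRel_of_mem_adjoin h hp hf hf (Sq.cons z 1) (Sq.cons p 1) (Sq.cons q 1)
  have hterm : ∀ g k : G, f g * f k *
      (Φ (Sq.cons z 1 * Sq.act (δ g) (Sq.cons p 1) * Sq.act (δ k) (Sq.cons q 1)) -
        Φ (Sq.cons z 1 * Sq.act (δ k) (Sq.cons q 1) * Sq.act (δ g) (Sq.cons p 1)))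
      = f g * f k * (Φ (Sq.cons (z * p * q) 1) - Φ (Sq.cons (z * q * p) 1)) := by
    intro g k
    by_cases hg : ∀ s ∈ coefSet δ Φ, s g = s 1
    · by_cases hk : ∀ s ∈ coefSet δ Φ, s k = s 1
      · simp only [Sq.act_cons, Sq.act_one, Sq.cons_mul, mul_one]
        rw [key g k hg hk, key k g hk hg]
      · rw [hf0 k hk]
        simp
    · rw [hf0 g hg]
      simp
  simp only [hterm] at hq
  have hsum : (∑ g, ∑ k, f g * f k * (Φ (Sq.cons (z * p * q) 1) - Φ (Sq.cons (z * q * p) 1)))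
      = (∑ g, f g) * (∑ k, f k) * (Φ (Sq.cons (z * p * q) 1) - Φ (Sq.cons (z * q * p) 1)) := by
    rw [Finset.sum_mul_sum, Finset.sum_mul]
    apply Finset.sum_congr rfl
    intro g _
    rw [Finset.sum_mul]
  rw [hsum] at hq
  have hf2 : ∑ g, f g = ((Finset.univ.filter
      (fun g : G => ∀ s ∈ coefSet δ Φ, s g = s 1)).card : ℂ) := by
    rw [Finset.card_filter]
    push_cast
    apply Finset.sum_congr rfl
    intro g _
    by_cases hg : ∀ s ∈ coefSet δ Φ, s g = s 1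
    · rw [hf1 g hg, if_pos hg]
    · rw [hf0 g hg, if_neg hg]
  have hne : ∑ g, f g ≠ 0 := by
    rw [hf2]
    have h1 : (1 : G) ∈ Finset.univ.filter (fun g : G => ∀ s ∈ coefSet δ Φ, s g = s 1) := by
      rw [Finset.mem_filter]
      exact ⟨Finset.mem_univ _, fun s _ => rfl⟩
    have h2 := Finset.card_pos.2 ⟨_, h1⟩
    exact_mod_cast h2.ne'
  have h3 : Φ (Sq.cons (z * p * q) 1) - Φ (Sq.cons (z * q * p) 1) = 0 := by
    rcases mul_eq_zero.1 hq with h4 | h4
    · exact absurd h4 (mul_ne_zero hne hne)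
    · exact h4
  have h5 : z * (p * q - q * p) = z * p * q - z * q * p := by
    rw [mul_sub, mul_assoc, mul_assoc]
  rw [h5, om_sub h, h3]

end P095E
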