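import Mathlib
import Vale.Agent.Lib.P095E.Defs
import Vale.Agent.Lib.P095E.SeqDefs

/-!
# P095, module A7: a character on the fixed point algebra gives a normalized function
-/

open scoped Topology
open Filter

namespace P095E

universe u v

section StateAux

variable {F : Type u} [CStarAlgebra F] {G : Type v} [Group G] [Fintype G]

theorem state_sum_mem (β : G →* (F ≃⋆ₐ[ℂ] F)) (x : F) :
    ∑ g, β g x ∈ fixAlg (Set.range β) := by
  rintro _ ⟨h, rfl⟩
  rw [map_sum]
  have h1 : ∀ g, (β h) ((β g) x) = (β (h * g)) x := fun g => by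
    rw [map_mul]
    rfl
  simp_rw [h1]
  exact Fintype.sum_equiv (Equiv.mulLeft h) _ _ fun g => rfl

/-- the averaging map onto the fixed point algebra (without normalization) -/
noncomputable def stateSum (β : G →* (F ≃⋆ₐ[ℂ] F)) : F →ₗ[ℂ] fixAlg (Set.range β) where
  toFun x := ⟨∑ g, β g x, state_sum_mem β x⟩
  map_add' x y := by
    apply Subtype.ext
    change ∑ g, β g (x + y) = ∑ g, β g x + ∑ g, β g y
    rw [← Finset.sum_add_distrib]
    exact Finset.sum_congr rfl fun g _ => map_add _ _ _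
  map_smul' c x := by
    apply Subtype.ext
    change ∑ g, β g (c • x) = c • ∑ g, β g x
    rw [Finset.smul_sum]
    exact Finset.sum_congr rfl fun g _ => map_smul _ _ _

theorem stateSum_coe (β : G →* (F ≃⋆ₐ[ℂ] F)) (x : F) :
    ((stateSum β x : fixAlg (Set.range β)) : F) = ∑ g, β g x := rfl

theorem stateSum_one (β : G →* (F ≃⋆ₐ[ℂ] F)) :
    stateSum β 1 = (Fintype.card G : ℂ) • (1 : fixAlg (Set.range β)) := by
  apply Subtype.ext
  rw [stateSum_coe]
  change ∑ g, β g 1 = (Fintype.card G : ℂ) • (1 : F)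
  rw [Finset.sum_congr rfl fun g _ => map_one (β g), Finset.sum_const, Finset.card_univ,
    Nat.cast_smul_eq_nsmul]

theorem stateSum_mul (β : G →* (F ≃⋆ₐ[ℂ] F)) (w : F) (a : fixAlg (Set.range β)) :
    stateSum β (w * (a : F)) = stateSum β w * a := by
  apply Subtype.ext
  rw [stateSum_coe]
  change ∑ g, β g (w * (a : F)) = (∑ g, β g w) * (a : F)
  rw [Finset.sum_mul]
  refine Finset.sum_congr rfl fun g _ => ?_
  rw [map_mul, a.2 (β g) ⟨g, rfl⟩]

section Order

attribute [local instance] CStarAlgebra.spectralOrder CStarAlgebra.spectralOrderedRing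

theorem stateSum_sq (β : G →* (F ≃⋆ₐ[ℂ] F)) (y : F) :
    ∃ k : fixAlg (Set.range β), stateSum β (star y * y) = star k * k := by
  set m : F := ∑ g, β g (star y * y) with hm
  have hmD : m ∈ fixAlg (Set.range β) := state_sum_mem β _
  have h0 : 0 ≤ m := by
    rw [hm]
    refine Finset.sum_nonneg fun g _ => ?_
    rw [map_mul, map_star]
    exact star_mul_self_nonneg _
  have hsa : IsSelfAdjoint m := IsSelfAdjoint.of_nonneg h0
  set k : F := cfc Real.sqrt m with hk
  have : IsClosed ((fixAlg (Set.range β) : StarSubalgebra ℂ F) : Set F) := fixAlg_isClosed _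
  have hkD : k ∈ fixAlg (Set.range β) := by
    rw [hk]
    exact cfc_mem (𝕜' := ℂ) Real.sqrt hmD
  have hksa : IsSelfAdjoint k := cfc_predicate Real.sqrt m
  have hkk : k * k = m := by
    rw [hk, ← cfc_mul (fun x => Real.sqrt x) (fun x => Real.sqrt x) m]
    conv_rhs => rw [← cfc_id ℝ m]
    apply cfc_congr
    intro x hx
    have : 0 ≤ x := spectrum_nonneg_of_nonneg h0 hx
    simp [Real.mul_self_sqrt this]
  refine ⟨⟨k, hkD⟩, ?_⟩
  apply Subtype.ext
  change m = star k * k
  rw [hksa.star_eq, hkk]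

end Order

end StateAux

variable {D F : Type u} [CStarAlgebra D] [CStarAlgebra F] {G : Type v} [Group G] [Fintype G]

/-- Let `χ` be a character on the fixed point algebra of the finite group `G` acting on `F` by `β`,
`E : F → fixAlg`, `E x = |G|⁻¹ ∑_g β_g x`, and `Φ x = χ (E (P x))`.  Then `Φ ∈ StSet δ`.

Proof.  `E x` is fixed (reindex the sum); `E` is linear, `E (star x) = star (E x)`, `E 1 = 1`,
`E (a x) = a E x`, `E (x a) = (E x) a` for `a` fixed.  `pos`: the double sum is
`χ (E (star y * y))` with `y = ∑ c_i P(x_i)`; `E (star y * y) = |G|⁻¹ ∑ star (β_g y) * β_g y` is a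
nonnegative element of the C*-algebra `fixAlg` (closed *-subalgebra of `F`; its square root is in
it; e.g. use that a *-homomorphism to `ℂ` maps nonnegative elements to nonnegative ones; or
`E(star y * y) = star k * k` with `k` in `fixAlg`, `CStarAlgebra.nonneg_iff_eq_star_mul_self`, with
`k = cfc sqrt`, `cfc_mem`-type lemma as in `OZ.exists_corestrict` of `Lib/P101/Corestrict.lean`), so
the value is `|χ k|²`.
`avg`: the sum is `χ (E (P z * (a b - b a)))` with `a = ∑_g β_g (P x)`, `b = ∑_h β_h (P y)` fixed, which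
is `χ(E (P z)) * (χ a * χ b - χ b * χ a) = 0`. -/
theorem nonempty_StSet (β : G →* (F ≃⋆ₐ[ℂ] F)) (χ : fixAlg (Set.range β) →⋆ₐ[ℂ] ℂ)
    (δ : G →* (D ≃⋆ₐ[ℂ] D)) (P : Sq D →* F) (hst : ∀ x, P (Sq.st x) = star (P x))
    (hadd : ∀ x j a b, P (Sq.upd x j (a + b)) = P (Sq.upd x j a) + P (Sq.upd x j b))
    (hsmul : ∀ x j (c : ℂ) a, P (Sq.upd x j (c • a)) = c • P (Sq.upd x j a))
    (hact : ∀ g x, P (Sq.act (δ g) x) = β g (P x)) : (StSet δ).Nonempty := by
  have hcard : (Fintype.card G : ℂ) ≠ 0 := by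
    exact_mod_cast Fintype.card_ne_zero
  refine ⟨fun x => (Fintype.card G : ℂ)⁻¹ * χ (stateSum β (P x)), ⟨?_, ?_, ?_, ?_⟩, ?_⟩
  · intro x j a b
    simp only [hadd, map_add, mul_add]
  · intro x j c a
    simp only [hsmul, map_smul, smul_eq_mul]
    ring
  · intro n x c
    obtain ⟨k, hk⟩ := stateSum_sq β (∑ i, c i • P (x i))
    refine ⟨(Fintype.card G : ℝ)⁻¹ * Complex.normSq (χ k),
      mul_nonneg (by positivity) (Complex.normSq_nonneg _), ?_⟩
    have h1 : stateSum β (star (∑ i, c i • P (x i)) * ∑ i, c i • P (x i)) =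
        ∑ i, ∑ j, (star (c i) * c j) • stateSum β (P (Sq.st (x i) * x j)) := by
      rw [star_sum, Finset.sum_mul, map_sum]
      refine Finset.sum_congr rfl fun i _ => ?_
      rw [Finset.mul_sum, map_sum]
      refine Finset.sum_congr rfl fun j _ => ?_
      rw [star_smul, smul_mul_smul_comm, map_smul, map_mul P, hst]
    have h2 : χ (stateSum β (star (∑ i, c i • P (x i)) * ∑ i, c i • P (x i))) =
        ∑ i, ∑ j, (star (c i) * c j) * χ (stateSum β (P (Sq.st (x i) * x j))) := by
      rw [h1, map_sum]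
      refine Finset.sum_congr rfl fun i _ => ?_
      rw [map_sum]
      refine Finset.sum_congr rfl fun j _ => ?_
      rw [map_smul, smul_eq_mul]
    have h3 : χ (star k * k) = (Complex.normSq (χ k) : ℂ) := by
      rw [map_mul, map_star, Complex.normSq_eq_conj_mul_self]
      rfl
    rw [hk, h3] at h2
    push_cast
    rw [h2, Finset.mul_sum]
    refine Finset.sum_congr rfl fun i _ => ?_
    rw [Finset.mul_sum]
    refine Finset.sum_congr rfl fun j _ => ?_
    ring
  · intro z x y
    have h1 : ∀ g h, P (z * Sq.act (δ g) x * Sq.act (δ h) y) = P z * β g (P x) * β h (P y) :=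
      fun g h => by rw [map_mul, map_mul, hact, hact]
    have h2 : ∀ g h, P (z * Sq.act (δ h) y * Sq.act (δ g) x) = P z * β h (P y) * β g (P x) :=
      fun g h => by rw [map_mul, map_mul, hact, hact]
    simp only [h1, h2, Finset.sum_sub_distrib]
    have h3 : ∑ g, ∑ h, (Fintype.card G : ℂ)⁻¹ *
        χ (stateSum β (P z * β g (P x) * β h (P y))) = (Fintype.card G : ℂ)⁻¹ *
        (χ (stateSum β (P z)) * χ (stateSum β (P x)) * χ (stateSum β (P y))) := by
      rw [← map_mul, ← map_mul, ← stateSum_mul, ← stateSum_mul, stateSum_coe, stateSum_coe]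
      rw [Finset.mul_sum Finset.univ _ (P z)]
      simp only [Finset.sum_mul, Finset.mul_sum, map_sum]
      exact Finset.sum_comm
    have h4 : ∑ g, ∑ h, (Fintype.card G : ℂ)⁻¹ *
        χ (stateSum β (P z * β h (P y) * β g (P x))) = (Fintype.card G : ℂ)⁻¹ *
        (χ (stateSum β (P z)) * χ (stateSum β (P y)) * χ (stateSum β (P x))) := by
      rw [Finset.sum_comm]
      rw [← map_mul, ← map_mul, ← stateSum_mul, ← stateSum_mul, stateSum_coe, stateSum_coe]
      rw [Finset.mul_sum Finset.univ _ (P z)]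
      simp only [Finset.sum_mul, Finset.mul_sum, map_sum]
      exact Finset.sum_comm
    rw [h3, h4]
    ring
  · change (Fintype.card G : ℂ)⁻¹ * χ (stateSum β (P 1)) = 1
    rw [map_one, stateSum_one, map_smul, map_one, smul_eq_mul, mul_one]
    exact inv_mul_cancel₀ hcard

end P095E
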