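import Mathlib
import Vale.Agent.Lib.P095E.SeqExt
import Vale.Agent.Lib.P095E.SeqProd
import Vale.Agent.Lib.P095E.ProdMap
import Vale.Agent.Lib.P095E.State
import Vale.Agent.Lib.P095E.CommA
import Vale.Agent.Lib.P095E.Comm

/-!
# P095, module A9: fixed point algebras of finite groups have no characters
-/

open scoped Topology
open Filter P101

namespace P095E

universe u v

variable {F : Type u} [CStarAlgebra F]

/-- **Main lemma for finite groups.**

Proof.  Suppose `χ` is a character on `fixAlg (range β)`.  Write `1 = ∑ z_i (x_i y_i - y_i x_i) w_i`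
(`inIdeal_commutator`).  Let `D` be a closed separable invariant *-subalgebra containing all
`z_i, x_i, y_i, w_i` (`exists_invariant_subalgebra`; `G` is finite), `δ` the restricted action
(`exists_restrict`), `θ` the sequence of equivariant homomorphisms from `hF`, `P` the product map
(`exists_prodMap`; `β g (θ j d) = θ j (δ g d)`).  `nonempty_StSet` and `exists_product` give `Φ ∈ StSet δ`
with the product formula, so by `product_comm` the function `ω a = Φ (cons a 1)`, which is linear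
(`IsSt.add`, `IsSt.smul`, `Sq.upd_cons_zero`), vanishes on all `z (p q - q p)`.  As
`z (x y - y x) w = z (x (y w) - (y w) x) + (z y) (w x - x w)`, `ω` vanishes on all
`z (x y - y x) w`, so `ω 1 = 0`; but `ω 1 = Φ (cons 1 1) = Φ 1 = 1` (`Sq.cons_one_one`). -/
theorem isEmpty_character_fixAlg {G : Type v} [Group G] [Finite G] (β : G →* (F ≃⋆ₐ[ℂ] F))
    (hF : HasEquivCopies (Set.range β)) (h : IsEmpty (F →⋆ₐ[ℂ] ℂ)) :
    IsEmpty (fixAlg (Set.range β) →⋆ₐ[ℂ] ℂ) := by
  constructor
  intro χ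
  haveI : Fintype G := Fintype.ofFinite G
  obtain ⟨m, z, c, w, hc, h1⟩ := inIdeal_commutator h
  choose p q hpq using hc
  have hT : (Set.range z ∪ Set.range p ∪ Set.range q ∪ Set.range w).Countable :=
    (((Set.countable_range z).union (Set.countable_range p)).union
      (Set.countable_range q)).union (Set.countable_range w)
  obtain ⟨D, hDc, hDs, hTD, hDinv⟩ := exists_invariant_subalgebra β _ hT
  obtain ⟨δ, hδ⟩ := exists_restrict β D hDinv
  obtain ⟨θ, hθc, hθe⟩ := hF D hDc hDs (by rintro s ⟨g, rfl⟩ d hd; exact hDinv g d hd)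
  haveI : IsClosed (D : Set F) := hDc
  obtain ⟨P, hPst, hPadd, hPsmul, hPact⟩ := exists_prodMap θ hθc
  have hne : (StSet δ).Nonempty :=
    nonempty_StSet β χ δ P hPst hPadd hPsmul fun g x =>
      hPact (δ g) (β g) (fun j d => hθe j (β g) ⟨g, rfl⟩ d (δ g d) (hδ g d).symm) x
  obtain ⟨Φ, hΦ, hΦp⟩ := exists_product δ hne
  have hadd : ∀ a b : D, Φ (Sq.cons (a + b) 1) = Φ (Sq.cons a 1) + Φ (Sq.cons b 1) := by
    intro a b
    have := hΦ.1.add (Sq.cons 0 1) 0 a b
    simpa only [Sq.upd_cons_zero] using this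
  have hzero : Φ (Sq.cons (0 : D) 1) = 0 := by
    have := hadd 0 0
    rw [add_zero] at this
    simpa using this
  have hcomm := product_comm hΦ.1 hΦp
  let ψ : D →+ ℂ :=
    { toFun := fun a => Φ (Sq.cons a 1)
      map_zero' := hzero
      map_add' := hadd }
  have hψ : ∀ a : D, ψ a = Φ (Sq.cons a 1) := fun a => rfl
  have hz : ∀ l, z l ∈ D := fun l => hTD (Or.inl (Or.inl (Or.inl ⟨l, rfl⟩)))
  have hp : ∀ l, p l ∈ D := fun l => hTD (Or.inl (Or.inl (Or.inr ⟨l, rfl⟩)))
  have hq : ∀ l, q l ∈ D := fun l => hTD (Or.inl (Or.inr ⟨l, rfl⟩))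
  have hw : ∀ l, w l ∈ D := fun l => hTD (Or.inr ⟨l, rfl⟩)
  have hrel : (1 : D) = ∑ l, (⟨z l, hz l⟩ : D) *
      ((⟨p l, hp l⟩ : D) * ⟨q l, hq l⟩ - ⟨q l, hq l⟩ * ⟨p l, hp l⟩) * ⟨w l, hw l⟩ := by
    refine Subtype.ext ?_
    rw [AddSubmonoidClass.coe_finsetSum]
    show (1 : F) = _
    rw [h1]
    refine Finset.sum_congr rfl fun l _ => ?_
    rw [hpq l]
    rfl
  have hterm : ∀ z' p' q' w' : D, ψ (z' * (p' * q' - q' * p') * w') = 0 := by
    intro z' p' q' w'
    have e : z' * (p' * q' - q' * p') * w' =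
        z' * (p' * (q' * w') - (q' * w') * p') + (z' * q') * (w' * p' - p' * w') := by
      noncomm_ring
    rw [e, map_add, hψ, hψ, hcomm, hcomm, add_zero]
  have h0 : ψ 1 = 0 := by
    rw [hrel, map_sum]
    exact Finset.sum_eq_zero fun l _ => hterm _ _ _ _
  rw [hψ, Sq.cons_one_one, hΦ.2] at h0
  exact one_ne_zero h0

end P095E
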