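import Vale.Agent.Lib.P095E.Defs
import Vale.Agent.Lib.P101.ZHom

/-!
# P095, module E1: homomorphisms with fixed image from a limit of dimension drop algebras
-/

open scoped ENNReal Topology
open Filter P101

namespace P095E

universe u v

/-- **Equivariant version of `P101.exists_hom_of_limit`** (file `Lib/P101/ZHom.lean`, copy its
proof).  Let `g : ℕ → κ` be a surjection (or an enumeration; `κ` countable, if `κ` is empty use
`P101.exists_hom_of_limit`), and choose the homomorphism `θ m : B m → F` with image fixed by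
`b (g 0), …, b (g m)` (`hF` with `K = {g 0, …, g m}`).  The homomorphism `θ : Z → Ultrapower ω F`
is `θ z = [θ m (s z m)]`, and `b k (θ m (s z m)) = θ m (s z m)` for all large `m`, so
`[b k (θ m (s z m))] = θ z` (the two sequences are eventually equal along `ω ≤ cofinite`). -/
theorem exists_hom_of_limitE (ω : Ultrafilter ℕ) (hω : (ω : Filter ℕ) ≤ Filter.cofinite)
    {F : Type u} [CStarAlgebra F] [Nontrivial F] (Z : Type u) [CStarAlgebra Z]
    (hZ : IsLimitOfPrimeDimDrops Z) {κ : Type v} [Countable κ] (b : κ → (F ≃⋆ₐ[ℂ] F))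
    (hF : ∀ (K : Finset κ) (p q : ℕ), 1 ≤ p → 1 ≤ q → Nat.Coprime p q →
      ∃ f : dimDrop p q →⋆ₐ[ℂ] F, ∀ k ∈ K, ∀ x, b k (f x) = f x) :
    ∃ θ : Z →⋆ₐ[ℂ] Ultrapower ω F, ∀ (k : κ) (z : Z) (y : lp (fun _ : ℕ => F) ∞),
      toUltrapower ω F y = θ z →
        toUltrapower ω F (lpMap (b k : F →⋆ₐ[ℂ] F) y) = θ z := by
  classical
  rcases isEmpty_or_nonempty κ with hκ | hκ
  · obtain ⟨θ⟩ := P101.exists_hom_of_limit ω hω (F := F) Z hZ
      (fun p q hp hq hpq => ⟨(hF ∅ p q hp hq hpq).choose⟩)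
    exact ⟨θ, fun k => (hκ.false k).elim⟩
  obtain ⟨g, hg⟩ := exists_surjective_nat κ
  obtain ⟨B, hmono, hdense, hB⟩ := hZ
  -- the homomorphisms on the subalgebras
  have hex : ∀ m, ∃ f : B m →⋆ₐ[ℂ] F, (∀ x, ‖f x‖ ≤ ‖(x : Z)‖) ∧
      ∀ i ≤ m, ∀ x, b (g i) (f x) = f x := by
    intro m
    obtain ⟨hcl, p, q, hp, hq, hpq, ⟨e⟩⟩ := hB m
    obtain ⟨f, hf⟩ := hF ((Finset.range (m + 1)).image g) p q hp hq hpq
    have : IsClosed ((B m : StarSubalgebra ℂ Z) : Set Z) := hcl
    refine ⟨f.comp (e : B m →⋆ₐ[ℂ] dimDrop p q), fun x => ?_, fun i hi x => ?_⟩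
    · exact NonUnitalStarAlgHom.norm_apply_le (f.comp (e : B m →⋆ₐ[ℂ] dimDrop p q)) x
    · exact hf (g i) (Finset.mem_image_of_mem g (Finset.mem_range.2 (by omega))) _
  choose θ hθ hfix using hex
  choose s hs using fun z => zhom_exists_seq hmono hdense z
  -- the bounded sequence attached to a convergent sequence
  have hbdd : ∀ (z : Z) (x : ∀ m, B m), Tendsto (fun m => (x m : Z)) atTop (𝓝 z) →
      Memℓp (fun m => θ m (x m)) ∞ := by
    intro z x hx
    apply memℓp_infty
    obtain ⟨C, hC⟩ := hx.norm.bddAbove_range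
    refine ⟨C, ?_⟩
    rintro _ ⟨m, rfl⟩
    exact (hθ m (x m)).trans (hC ⟨m, rfl⟩)
  let l : Z → lp (fun _ : ℕ => F) ∞ := fun z => ⟨fun m => θ m (s z m), hbdd z (s z) (hs z)⟩
  -- the class does not depend on the sequence
  have key : ∀ (z : Z) (x : ∀ m, B m), Tendsto (fun m => (x m : Z)) atTop (𝓝 z) →
      ∀ y : lp (fun _ : ℕ => F) ∞, (∀ m, y m = θ m (x m)) →
      toUltrapower ω F (l z) = toUltrapower ω F y := by
    intro z x hx y hy
    rw [← sub_eq_zero, ← map_sub]
    apply (quotMk_eq_zero_iff (cNull ω F) _).2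
    rw [mem_cNull]
    have h1 : Tendsto (fun m => ‖((s z m : B m) : Z) - (x m : Z)‖) atTop (𝓝 0) := by
      have := ((hs z).sub hx).norm
      rwa [sub_self, norm_zero] at this
    have hω' : (ω : Filter ℕ) ≤ atTop := by rwa [Nat.cofinite_eq_atTop] at hω
    refine squeeze_zero (fun m => norm_nonneg _) (fun m => ?_) (h1.mono_left hω')
    have h2 : (l z - y) m = θ m (s z m - x m) := by
      rw [map_sub, ← hy m]
      rfl
    rw [h2]
    exact hθ m _
  refine ⟨{ toFun := fun z => toUltrapower ω F (l z), map_one' := ?_, map_mul' := ?_,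
            map_zero' := ?_, map_add' := ?_, commutes' := ?_, map_star' := ?_ }, ?_⟩
  · rw [key 1 (fun m => 1) tendsto_const_nhds 1 (fun m => by rw [map_one]; rfl), map_one]
  · intro z w
    rw [← map_mul]
    refine key (z * w) (fun m => s z m * s w m) ((hs z).mul (hs w)) (l z * l w) (fun m => ?_)
    rw [map_mul]
    rfl
  · change toUltrapower ω F (l 0) = 0
    rw [key 0 (fun m => 0) tendsto_const_nhds 0 (fun m => by rw [map_zero]; rfl), map_zero]
  · intro z w
    change toUltrapower ω F (l (z + w)) = toUltrapower ω F (l z) + toUltrapower ω F (l w)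
    rw [← map_add]
    refine key (z + w) (fun m => s z m + s w m) ((hs z).add (hs w)) (l z + l w) (fun m => ?_)
    rw [map_add]
    rfl
  · intro c
    change toUltrapower ω F (l (algebraMap ℂ Z c)) = _
    rw [key (algebraMap ℂ Z c) (fun m => algebraMap ℂ (B m) c) tendsto_const_nhds
      (algebraMap ℂ _ c) (fun m => by rw [AlgHomClass.commutes]; rfl)]
    exact AlgHomClass.commutes _ c
  · intro z
    rw [← map_star]
    refine key (star z) (fun m => star (s z m)) ((hs z).star) (star (l z)) (fun m => ?_)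
    rw [map_star]
    rfl
  · intro k z y hy
    change toUltrapower ω F y = toUltrapower ω F (l z) at hy
    change toUltrapower ω F (lpMap (b k : F →⋆ₐ[ℂ] F) y) = toUltrapower ω F (l z)
    obtain ⟨m₀, rfl⟩ := hg k
    rw [← sub_eq_zero, ← map_sub] at hy ⊢
    have hy' := (quotMk_eq_zero_iff (cNull ω F) _).1 hy
    rw [mem_cNull] at hy'
    apply (quotMk_eq_zero_iff (cNull ω F) _).2
    rw [mem_cNull]
    refine hy'.congr' ?_
    have hω' : (ω : Filter ℕ) ≤ atTop := by rwa [Nat.cofinite_eq_atTop] at hω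
    filter_upwards [hω' (eventually_ge_atTop m₀)] with m hm
    have h1 : (lpMap (b (g m₀) : F →⋆ₐ[ℂ] F) y - l z) m = b (g m₀) ((y - l z) m) := by
      have h2 : b (g m₀) (l z m) = l z m := hfix m m₀ hm (s z m)
      change b (g m₀) (y m) - l z m = b (g m₀) (y m - l z m)
      rw [map_sub, h2]
    rw [h1, norm_aut]

end P095E
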