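import Mathlib
import Vale.Agent.Lib.P095E.HomE
import Vale.Agent.Lib.P095E.ApproxE
import Vale.Agent.Lib.P095E.InterE
import Vale.Agent.Lib.P095E.CocycleE

/-!
# P095, module E5: equivariant absorption from homomorphisms into fixed point algebras
-/

open scoped ENNReal Topology TensorProduct
open Filter P101

namespace P095E

universe u v

/-- **Criterion.**  If for every finite set `K` of group elements every prime dimension drop algebra
has a unital *-homomorphism into the elements of `F_ω(A)` fixed by `K`, then `α` is cocycle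
conjugate to `γ = α ⊗ id_Z`.

Proof.  `exists_hom_of_limitE` (with `F = FOmega ω A`, `b = β`) gives `θ`.
`exists_unitary_approxE` and `P101.approxMoved_finset` (as in `P101.absorbs_of_hom`, file
`Lib/P101/ZFinal.lean`) give the hypothesis of `exists_limit_equiv`; `exists_cocycle` finishes.
(`P101.injective_of_tensor`, `P101.separable_of_tensor`, `P101.fOmega_nontrivial`,
`P101.nontrivial_of_limit`.) -/
theorem cocycle_conj_of_homs (ω : Ultrafilter ℕ) (hω : (ω : Filter ℕ) ≤ Filter.cofinite)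
    {A Z B : Type u} [CStarAlgebra A] [CStarAlgebra Z] [CStarAlgebra B] [Nontrivial A]
    [TopologicalSpace.SeparableSpace A] (hZ : IsJiangSuLike Z)
    (i : A →⋆ₐ[ℂ] B) (j : Z →⋆ₐ[ℂ] B) (hij : ∀ a z, Commute (i a) (j z))
    (hinj : Function.Injective (TensorProduct.lift
      ((LinearMap.mul ℂ B).compl₁₂ i.toAlgHom.toLinearMap j.toAlgHom.toLinearMap)))
    (hd : DenseRange (TensorProduct.lift
      ((LinearMap.mul ℂ B).compl₁₂ i.toAlgHom.toLinearMap j.toAlgHom.toLinearMap)))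
    {G : Type v} [Group G] [Countable G] (α : G →* (A ≃⋆ₐ[ℂ] A)) (γ : G →* (B ≃⋆ₐ[ℂ] B))
    (hi : ∀ g x, γ g (i x) = i (α g x)) (hj : ∀ g z, γ g (j z) = j z)
    (β : G →* (FOmega ω A ≃⋆ₐ[ℂ] FOmega ω A)) (hβ : ∀ g, Induces ω (α g) (β g))
    (hF : ∀ (K : Finset G) (p q : ℕ), 1 ≤ p → 1 ≤ q → Nat.Coprime p q →
      ∃ f : dimDrop p q →⋆ₐ[ℂ] FOmega ω A, ∀ k ∈ K, ∀ x, β k (f x) = f x) :
    ∃ (Φ : A ≃⋆ₐ[ℂ] B) (w : G → unitary B), (∀ g h, (w (g * h) : B) = w g * γ g (w h : B)) ∧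
      ∀ g a, Φ (α g a) = w g * γ g (Φ a) * star (w g : B) := by
  classical
  have := hZ.separable
  have : Nontrivial Z := nontrivial_of_limit Z hZ.limit
  have hii : Function.Injective i := injective_of_tensor i j hinj
  have : Nontrivial B := hii.nontrivial
  have := separable_of_tensor i j hd
  obtain ⟨θ, hθ⟩ := exists_hom_of_limitE ω hω Z hZ.limit (fun g => β g) hF
  have hlim : ∀ (S : Finset A) (T : Finset B) (K : Finset G) (ε : ℝ), 0 < ε → ∃ u ∈ unitary B,
      (∀ a ∈ S, ‖u * i a - i a * u‖ < ε) ∧ (∀ b ∈ T, ∃ a : A, ‖u * b * star u - i a‖ < ε) ∧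
      ∀ k ∈ K, ‖(fun g => γ g) k u - u‖ < ε := by
    intro S T K ε hε
    obtain ⟨S', T', δ, hδ, h⟩ := approxMoved_finset i j hd hε T
    obtain ⟨u, hu, h1, h2, h3⟩ := exists_unitary_approxE ω hZ.flip (fun g => α g) (fun g => β g)
      hβ θ hθ i j hij (fun g => γ g) hi hj (S ∪ S') T' K (lt_min hε hδ)
    refine ⟨u, hu, fun a ha => (h1 a (Finset.mem_union_left _ ha)).trans_le (min_le_left _ _),
      ?_, fun k hk => (h3 k hk).trans_le (min_le_left _ _)⟩
    refine h u hu (fun a ha => (h1 a (Finset.mem_union_right _ ha)).trans_le (min_le_right _ _))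
      fun z hz => ?_
    obtain ⟨a, ha⟩ := h2 z hz
    exact ⟨a, ha.trans_le (min_le_right _ _)⟩
  obtain ⟨v, Φ, hv1, hv2⟩ := exists_limit_equiv i hii (fun g => γ g) hlim
  obtain ⟨w, hw1, hw2⟩ := exists_cocycle i α γ hi v Φ hv1 hv2
  exact ⟨Φ, w, hw1, hw2⟩

end P095E
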