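import Vale.Agent.Lib.P095E.ZPropsA

/-!
# P095, modules D: a strongly self-absorbing tensor factor gives a unital map into `F_ω`
-/

open scoped ENNReal Topology TensorProduct
open Filter P101

namespace P095E

universe u v

/-- the elements `j (b_n z)` asymptotically commute with the elements `i(a) j(z')` and hence with
everything -/
theorem zprops_tendsto_comm {A Z B : Type u} [CStarAlgebra A] [CStarAlgebra Z]
    [CStarAlgebra B] (i : A →⋆ₐ[ℂ] B) (j : Z →⋆ₐ[ℂ] B) (hij : ∀ a z, Commute (i a) (j z))
    (hd : DenseRange (TensorProduct.lift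
      ((LinearMap.mul ℂ B).compl₁₂ i.toAlgHom.toLinearMap j.toAlgHom.toLinearMap)))
    (b : ℕ → (Z →⋆ₐ[ℂ] Z))
    (hb : ∀ z z' : Z, Tendsto (fun n => ‖b n z * z' - z' * b n z‖) atTop (𝓝 0)) (z : Z) (c : B) :
    Tendsto (fun n => ‖j (b n z) * c - c * j (b n z)‖) atTop (𝓝 0) := by
  set T := TensorProduct.lift
      ((LinearMap.mul ℂ B).compl₁₂ i.toAlgHom.toLinearMap j.toAlgHom.toLinearMap) with hT
  have hnorm : ∀ n, ‖j (b n z)‖ ≤ ‖z‖ := fun n =>
    NonUnitalStarAlgHom.norm_apply_le (j.comp (b n)) z
  have h1 : ∀ x : A ⊗[ℂ] Z,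
      Tendsto (fun n => ‖j (b n z) * T x - T x * j (b n z)‖) atTop (𝓝 0) := by
    intro x
    induction x using TensorProduct.induction_on with
    | zero => simp
    | tmul a z' =>
      have hTx : T (a ⊗ₜ[ℂ] z') = i a * j z' := rfl
      rw [hTx]
      have h2 : Tendsto (fun n => ‖i a‖ * ‖b n z * z' - z' * b n z‖) atTop (𝓝 0) := by
        have := (hb z z').const_mul ‖i a‖
        rwa [mul_zero] at this
      refine squeeze_zero (fun n => norm_nonneg _) (fun n => ?_) h2
      have h3 : j (b n z) * (i a * j z') - i a * j z' * j (b n z) =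
          i a * j (b n z * z' - z' * b n z) := by
        rw [map_sub, map_mul, map_mul, mul_sub, ← mul_assoc, ← (hij a (b n z)).eq, mul_assoc,
          mul_assoc]
      rw [h3]
      exact (norm_mul_le _ _).trans (mul_le_mul_of_nonneg_left
        (NonUnitalStarAlgHom.norm_apply_le j _) (norm_nonneg _))
    | add x y hx hy =>
      have h2 := hx.add hy
      rw [add_zero] at h2
      refine squeeze_zero (fun n => norm_nonneg _) (fun n => ?_) h2
      have h3 : j (b n z) * T (x + y) - T (x + y) * j (b n z) =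
          (j (b n z) * T x - T x * j (b n z)) + (j (b n z) * T y - T y * j (b n z)) := by
        rw [map_add]
        noncomm_ring
      rw [h3]
      exact norm_add_le _ _
  rw [Metric.tendsto_atTop]
  intro ε hε
  obtain ⟨x, hx⟩ := hd.exists_dist_lt c (show (0 : ℝ) < ε / (4 * (‖z‖ + 1)) by positivity)
  obtain ⟨N, hN⟩ := Metric.tendsto_atTop.1 (h1 x) (ε / 2) (by positivity)
  refine ⟨N, fun n hn => ?_⟩
  have h2 := hN n hn
  rw [Real.dist_eq, sub_zero, abs_of_nonneg (norm_nonneg _)] at h2 ⊢
  have h3 : ‖c - T x‖ < ε / (4 * (‖z‖ + 1)) := by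
    rw [← dist_eq_norm]
    exact hx
  have h4 : j (b n z) * c - c * j (b n z) =
      (j (b n z) * T x - T x * j (b n z)) +
        (j (b n z) * (c - T x) - (c - T x) * j (b n z)) := by
    noncomm_ring
  have h5 : ‖j (b n z) * (c - T x)‖ ≤ ε / 4 := by
    refine (norm_mul_le _ _).trans ?_
    have h6 : ‖j (b n z)‖ * ‖c - T x‖ ≤ (‖z‖ + 1) * (ε / (4 * (‖z‖ + 1))) :=
      mul_le_mul ((hnorm n).trans (by linarith)) h3.le (norm_nonneg _) (by positivity)
    refine h6.trans (le_of_eq ?_)
    field_simp
  have h7 : ‖(c - T x) * j (b n z)‖ ≤ ε / 4 := by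
    refine (norm_mul_le _ _).trans ?_
    have h6 : ‖c - T x‖ * ‖j (b n z)‖ ≤ (ε / (4 * (‖z‖ + 1))) * (‖z‖ + 1) :=
      mul_le_mul h3.le ((hnorm n).trans (by linarith)) (norm_nonneg _) (by positivity)
    refine h6.trans (le_of_eq ?_)
    field_simp
  rw [h4]
  calc _ ≤ ‖j (b n z) * T x - T x * j (b n z)‖ +
        ‖j (b n z) * (c - T x) - (c - T x) * j (b n z)‖ := norm_add_le _ _
    _ ≤ ‖j (b n z) * T x - T x * j (b n z)‖ +
        (‖j (b n z) * (c - T x)‖ + ‖(c - T x) * j (b n z)‖) := by
        gcongr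
        exact norm_sub_le _ _
    _ < ε := by linarith

/-- **Module D1b.**  Let `i : A → B`, `j : Z → B` be commuting unital *-homomorphisms with
`i(A) j(Z)` total in `B`.  Then there is a unital *-homomorphism `Z → F_ω(B)`, `z ↦ [j (b_n z)]`.

Proof.  `b` from `exists_asymptotic_endo`.  The class of `n ↦ j (b_n z)` (bounded by `‖z‖`) commutes
with the classes of the constants `i a` and `j z'`, hence with the constants in the closed
*-subalgebra of `B` they generate, which is everything by density (`P101.mem_centralSeq`; the set of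
`c : B` whose constant class commutes with a given element is closed and closed under sums and
products); it is a unital *-homomorphism in `z` since each `j ∘ b_n` is. -/
theorem exists_hom_of_selfAbsorbing (ω : Ultrafilter ℕ)
    (hω : (ω : Filter ℕ) ≤ Filter.cofinite) {A Z B : Type u} [CStarAlgebra A] [CStarAlgebra Z]
    [CStarAlgebra B] [Nontrivial B] [TopologicalSpace.SeparableSpace Z] (hZ : SelfAbsorbing Z)
    (i : A →⋆ₐ[ℂ] B) (j : Z →⋆ₐ[ℂ] B) (hij : ∀ a z, Commute (i a) (j z))
    (hd : DenseRange (TensorProduct.lift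
      ((LinearMap.mul ℂ B).compl₁₂ i.toAlgHom.toLinearMap j.toAlgHom.toLinearMap))) :
    Nonempty (Z →⋆ₐ[ℂ] FOmega ω B) := by
  obtain ⟨b, hb⟩ := exists_asymptotic_endo hZ
  let g : Z →⋆ₐ[ℂ] lp (fun _ : ℕ => B) ∞ :=
    { toFun := fun z => ⟨fun n => j (b n z), memℓp_infty ⟨‖z‖, by
        rintro _ ⟨n, rfl⟩
        exact NonUnitalStarAlgHom.norm_apply_le (j.comp (b n)) z⟩⟩
      map_one' := by ext n; exact map_one (j.comp (b n))
      map_mul' := fun x y => by ext n; exact map_mul (j.comp (b n)) x y
      map_zero' := by ext n; exact map_zero (j.comp (b n))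
      map_add' := fun x y => by ext n; exact map_add (j.comp (b n)) x y
      commutes' := fun c => by ext n; exact AlgHomClass.commutes (j.comp (b n)) c
      map_star' := fun x => by ext n; exact StarHomClass.map_star (j.comp (b n)) x }
  have hg : ∀ z, toUltrapower ω B (g z) ∈ centralSeq ω B := by
    intro z
    refine mem_centralSeq_of_commute ω B fun c => commute_of_eventually ω B fun ε hε => ?_
    have hω' : (ω : Filter ℕ) ≤ atTop := by rwa [Nat.cofinite_eq_atTop] at hω
    have h1 := (zprops_tendsto_comm i j hij hd b hb z c).mono_left hω'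
    filter_upwards [(Metric.tendsto_nhds.1 h1) ε hε] with n hn
    rw [Real.dist_eq, sub_zero, abs_of_nonneg (norm_nonneg _)] at hn
    exact hn
  exact ⟨StarAlgHom.codRestrict ((toUltrapower ω B).comp g) (centralSeq ω B) hg⟩

end P095E
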