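import Vale.Agent.Lib.P095E.Defs

/-!
# P095, modules D2, D3
-/

open scoped ENNReal Topology TensorProduct
open Filter P101

namespace P095E

universe u v

/-- **Module D2.**  An isomorphism `A ≃ B` induces a unital *-homomorphism `F_ω(B) → F_ω(A)`
(`exists_ultraMap` for the inverse; constants go to constants). -/
theorem exists_FOmega_hom (ω : Ultrafilter ℕ) {A B : Type u} [CStarAlgebra A] [CStarAlgebra B]
    [Nontrivial A] [Nontrivial B] (e : A ≃⋆ₐ[ℂ] B) : Nonempty (FOmega ω B →⋆ₐ[ℂ] FOmega ω A) := by
  obtain ⟨g, hg⟩ := exists_ultraMap ω (A := B) (B := A) (e.symm : B →⋆ₐ[ℂ] A)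
  have hconst : ∀ a : A, toUltrapower ω A (constSeq A a) =
      g (toUltrapower ω B (constSeq B (e a))) := by
    intro a
    rw [hg]
    congr 1
    ext n
    change a = e.symm (e a)
    rw [StarAlgEquiv.symm_apply_apply]
  refine ⟨(g.comp (centralSeq ω B).subtype).codRestrict (centralSeq ω A) ?_⟩
  rintro ⟨x, hx⟩
  change g x ∈ StarSubalgebra.centralizer ℂ (constRange ω A)
  have hx' : x ∈ StarSubalgebra.centralizer ℂ (constRange ω B) := hx
  rw [StarSubalgebra.mem_centralizer_iff] at hx' ⊢
  rintro _ ⟨a, rfl⟩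
  have h1 := hx' _ ⟨e a, rfl⟩
  change toUltrapower ω A (constSeq A a) * g x = g x * toUltrapower ω A (constSeq A a) ∧
    star (toUltrapower ω A (constSeq A a)) * g x = g x * star (toUltrapower ω A (constSeq A a))
  rw [hconst a, ← map_star, ← map_mul, ← map_mul, ← map_mul, ← map_mul]
  exact ⟨congrArg g h1.1, congrArg g h1.2⟩

/-- **Module D3.**  A simple ring which is an infinite dimensional `ℂ`-algebra has no characters:
the kernel of a character is a two-sided ideal different from everything, so it is zero, so the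
character is injective and the dimension is at most `1`. -/
theorem isEmpty_character_of_simple {Z : Type u} [CStarAlgebra Z] [IsSimpleRing Z]
    (h : ¬ FiniteDimensional ℂ Z) : IsEmpty (Z →⋆ₐ[ℂ] ℂ) := by
  refine ⟨fun χ => h ?_⟩
  have hinj : Function.Injective (χ : Z → ℂ) := ((χ : Z →ₐ[ℂ] ℂ) : Z →+* ℂ).injective
  exact FiniteDimensional.of_injective ((χ : Z →ₐ[ℂ] ℂ).toLinearMap) hinj

end P095E
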