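import Mathlib
import Vale.Agent.Lib.P095E.Defs
import Vale.Agent.Lib.P095E.FinGroup
import Vale.Agent.Lib.P095E.Induced
import Vale.Agent.Lib.P095E.CopiesEB
import Vale.Agent.Lib.P095E.CopiesEC
import Vale.Agent.Lib.P095E.ZPropsB
import Vale.Agent.Lib.P095E.ZProps
import Vale.Agent.Lib.P095E.FinalE

/-!
# P095: assembly of stage 1
-/

open scoped ENNReal Topology TensorProduct
open Filter P101

namespace P095E

universe u v

/-- The homomorphisms into fixed point algebras of finitely many automorphisms generating a finite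
group. -/
theorem exists_hom_fix {F : Type u} [CStarAlgebra F] [Nontrivial F] (S : Set (F ≃⋆ₐ[ℂ] F))
    (hS : HasEquivCopies S) (h : IsEmpty (F →⋆ₐ[ℂ] ℂ))
    (hfin : (Subgroup.closure S : Set (F ≃⋆ₐ[ℂ] F)).Finite) (p q : ℕ) (hp : 1 ≤ p) (hq : 1 ≤ q)
    (hpq : Nat.Coprime p q) :
    ∃ f : dimDrop p q →⋆ₐ[ℂ] F, ∀ s ∈ S, ∀ x, s (f x) = f x := by
  have : Finite (Subgroup.closure S) := hfin
  have hr : Set.range (Subgroup.closure S).subtype = (Subgroup.closure S : Set (F ≃⋆ₐ[ℂ] F)) := by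
    ext s
    constructor
    · rintro ⟨t, rfl⟩
      exact t.2
    · intro hs
      exact ⟨⟨s, hs⟩, rfl⟩
  have h1 : HasEquivCopies (Set.range (Subgroup.closure S).subtype) := by
    rw [hr]
    exact hS.closure
  have h2 := isEmpty_character_fixAlg (Subgroup.closure S).subtype h1 h
  rw [hr, fixAlg_closure] at h2
  obtain ⟨n, hn, ⟨f⟩⟩ := exists_dimDrop_hom_coprime hp hq hpq
  have : NeZero n := ⟨by omega⟩
  have : Nontrivial (fixAlg S) :=
    ⟨⟨0, 1, fun h01 => zero_ne_one (α := F) (congrArg Subtype.val h01)⟩⟩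
  obtain ⟨g⟩ := exists_hom_of_no_characters (hasCopies_fixAlg hS) h2 n
  refine ⟨(fixAlg S).subtype.comp (g.comp f), fun s hs x => ?_⟩
  exact (g (f x)).2 s hs

theorem main (ω : Ultrafilter ℕ) (hω : (ω : Filter ℕ) ≤ Filter.cofinite)
    {A Z B : Type u} [CStarAlgebra A] [CStarAlgebra Z] [CStarAlgebra B] [Nontrivial A]
    [TopologicalSpace.SeparableSpace A] (hZ : IsJiangSuLike Z) [IsSimpleRing Z]
    (hinf : ¬ FiniteDimensional ℂ Z) (hself : SelfAbsorbing Z)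
    (i : A →⋆ₐ[ℂ] B) (j : Z →⋆ₐ[ℂ] B) (hij : ∀ a z, Commute (i a) (j z))
    (hinj : Function.Injective (TensorProduct.lift
      ((LinearMap.mul ℂ B).compl₁₂ i.toAlgHom.toLinearMap j.toAlgHom.toLinearMap)))
    (hd : DenseRange (TensorProduct.lift
      ((LinearMap.mul ℂ B).compl₁₂ i.toAlgHom.toLinearMap j.toAlgHom.toLinearMap)))
    (e : A ≃⋆ₐ[ℂ] B)
    {G : Type v} [Group G] [Countable G] (α : G →* (A ≃⋆ₐ[ℂ] A)) (γ : G →* (B ≃⋆ₐ[ℂ] B))
    (hi : ∀ g x, γ g (i x) = i (α g x)) (hj : ∀ g z, γ g (j z) = j z)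
    (hfin : ∀ K : Finset G, ∃ R : Finset G, ∀ g ∈ Subgroup.closure (K : Set G), ∃ r ∈ R,
      ∃ v ∈ unitary A, ∀ x, α g x = v * α r x * star v) :
    ∃ (Φ : A ≃⋆ₐ[ℂ] B) (w : G → unitary B), (∀ g h, (w (g * h) : B) = w g * γ g (w h : B)) ∧
      ∀ g a, Φ (α g a) = w g * γ g (Φ a) * star (w g : B) := by
  classical
  have := hZ.separable
  have : Nontrivial B := e.injective.nontrivial
  obtain ⟨f⟩ := exists_hom_of_selfAbsorbing ω hω hself i j hij hd
  obtain ⟨f'⟩ := exists_FOmega_hom ω e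
  have hch : IsEmpty (FOmega ω A →⋆ₐ[ℂ] ℂ) :=
    ⟨fun χ => (isEmpty_character_of_simple hinf).false (χ.comp (f'.comp f))⟩
  obtain ⟨β, hβ⟩ := exists_induced_action ω α
  refine cocycle_conj_of_homs ω hω hZ i j hij hinj hd α γ hi hj β hβ ?_
  intro K p q hp hq hpq
  obtain ⟨R, hR⟩ := hfin K
  have hS : HasEquivCopies (β '' (K : Set G)) := by
    refine hasEquivCopies_FOmega ω hω A _ (K.countable_toSet.image _) ?_
    rintro _ ⟨k, _, rfl⟩
    exact ⟨α k, hβ k⟩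
  have hfin' : (Subgroup.closure (β '' (K : Set G)) :
      Set (FOmega ω A ≃⋆ₐ[ℂ] FOmega ω A)).Finite := by
    refine (R.finite_toSet.image β).subset ?_
    rw [← MonoidHom.map_closure]
    rintro _ ⟨g, hg, rfl⟩
    obtain ⟨r, hr, v, hv, hgr⟩ := hR g hg
    exact ⟨r, hr, (hβ r).of_inner hv hgr |>.unique (hβ g)⟩
  obtain ⟨f, hf⟩ := exists_hom_fix _ hS hch hfin' p q hp hq hpq
  exact ⟨f, fun k hk x => hf _ ⟨k, hk, rfl⟩ x⟩

end P095E
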