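import Vale.Agent.Lib.P101.Stmt

/-!
# P095: the definitions used in the statement (stage 1)
-/

open scoped Topology TensorProduct

namespace P095E

universe u v

/-- any two C*-completions of the algebraic tensor product `A ⊗ Z` agree (there is only one
C*-norm on `A ⊗ Z`). -/
def UniqueTensorNorm (A Z : Type u) [CStarAlgebra A] [CStarAlgebra Z] : Prop :=
  ∀ (B B' : Type u) [CStarAlgebra B] [CStarAlgebra B'] (m : A ⊗[ℂ] Z →⋆ₐ[ℂ] B)
    (m' : A ⊗[ℂ] Z →⋆ₐ[ℂ] B'), Function.Injective m → DenseRange m → Function.Injective m' →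
    DenseRange m' → ∃ e : B ≃⋆ₐ[ℂ] B', ∀ t, e (m t) = m' t

/-- `Z` is nuclear: for every unital C*-algebra `A` there is only one C*-norm on `A ⊗ Z`. -/
def Nuclear (Z : Type u) [CStarAlgebra Z] : Prop :=
  ∀ (A : Type u) [CStarAlgebra A], UniqueTensorNorm A Z

/-- `Z` is strongly self-absorbing: there are a C*-completion `C` of `Z ⊗ Z` and an isomorphism
`e : Z → C` which is approximately unitarily equivalent to `z ↦ z ⊗ 1`. -/
def StronglySelfAbsorbing (Z : Type u) [CStarAlgebra Z] : Prop :=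
  ∃ (C : Type u) (_ : CStarAlgebra C) (m : Z ⊗[ℂ] Z →⋆ₐ[ℂ] C) (e : Z ≃⋆ₐ[ℂ] C),
    Function.Injective m ∧ DenseRange m ∧ ∀ (S : Finset Z) (ε : ℝ), 0 < ε →
      ∃ u ∈ unitary C, ∀ z ∈ S, ‖u * m (z ⊗ₜ[ℂ] 1) * star u - e z‖ < ε

/-- The properties of the Jiang-Su algebra that are used; all of them are proved in the paper of
Jiang and Su (1999): separable, simple, infinite dimensional, nuclear, inductive limit of prime
dimension drop algebras, approximately inner half flip, strongly self-absorbing. -/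
structure IsJiangSu (Z : Type u) [CStarAlgebra Z] : Prop where
  separable : TopologicalSpace.SeparableSpace Z
  simple : IsSimpleRing Z
  infinite : ¬ FiniteDimensional ℂ Z
  nuclear : Nuclear Z
  limit : P101.IsDimDropLimit Z
  flip : P101.HasInnerHalfFlip Z
  selfAbsorbing : StronglySelfAbsorbing Z

section Action

variable {G : Type v} [Group G] {A B : Type u} [CStarAlgebra A] [CStarAlgebra B]

/-- The actions `α` on `A` and `γ` on `B` are cocycle conjugate: there are a *-isomorphism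
`Φ : A → B` and a `γ`-cocycle `w` of unitaries of `B` with `Φ(α_g(a)) = w_g γ_g(Φ(a)) w_g^*`. -/
def CocycleConjugate (α : G →* (A ≃⋆ₐ[ℂ] A)) (γ : G →* (B ≃⋆ₐ[ℂ] B)) : Prop :=
  ∃ (Φ : A ≃⋆ₐ[ℂ] B) (w : G → unitary B), (∀ g h, (w (g * h) : B) = w g * γ g (w h : B)) ∧
    ∀ g a, Φ (α g a) = w g * γ g (Φ a) * star (w g : B)

/-- The image of `α : G → Aut(A)` in the outer automorphism group `Out(A)` is locally finite: the
image of every finitely generated subgroup is finite. -/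
def LocallyFiniteOuterImage (α : G →* (A ≃⋆ₐ[ℂ] A)) : Prop :=
  ∀ K : Finset G, ∃ R : Finset G, ∀ g ∈ Subgroup.closure (K : Set G), ∃ r ∈ R,
    ∃ v ∈ unitary A, ∀ x, α g x = v * α r x * star v

/-- `γ` is the action `α ⊗ id_Z` on the C*-completion `m : A ⊗ Z → B`. -/
def IsTensorAction {Z : Type u} [CStarAlgebra Z] (m : A ⊗[ℂ] Z →⋆ₐ[ℂ] B)
    (α : G →* (A ≃⋆ₐ[ℂ] A)) (γ : G →* (B ≃⋆ₐ[ℂ] B)) : Prop :=
  ∀ (g : G) (a : A) (z : Z), γ g (m (a ⊗ₜ[ℂ] z)) = m (α g a ⊗ₜ[ℂ] z)

end Action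

end P095E
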