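import Mathlib.Analysis.CStarAlgebra.Hom
import Vale.Agent.Lib.P095E.Stmt

/-!
# P095: existence and uniqueness of the action `α ⊗ id`
-/

open scoped Topology TensorProduct

namespace P095E

universe u v

variable {A Z B : Type u} [CStarAlgebra A] [CStarAlgebra Z] [CStarAlgebra B]

/-- `a ⊗ id` for a *-automorphism `a` -/
noncomputable def tensorId (Z : Type u) [CStarAlgebra Z] (a : A →⋆ₐ[ℂ] A) :
    A ⊗[ℂ] Z →⋆ₐ[ℂ] A ⊗[ℂ] Z :=
  { Algebra.TensorProduct.map a.toAlgHom (AlgHom.id ℂ Z) with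
    map_star' := fun t => by
      change Algebra.TensorProduct.map a.toAlgHom (AlgHom.id ℂ Z) (star t) =
        star (Algebra.TensorProduct.map a.toAlgHom (AlgHom.id ℂ Z) t)
      induction t using TensorProduct.induction_on with
      | zero => simp
      | tmul x z =>
        rw [TensorProduct.star_tmul, Algebra.TensorProduct.map_tmul,
          Algebra.TensorProduct.map_tmul, TensorProduct.star_tmul]
        change a (star x) ⊗ₜ[ℂ] star z = star (a x) ⊗ₜ[ℂ] star z
        rw [map_star]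
      | add x y hx hy => rw [star_add, map_add, map_add, hx, hy, star_add] }

theorem tensorId_tmul (a : A →⋆ₐ[ℂ] A) (x : A) (z : Z) :
    tensorId Z a (x ⊗ₜ[ℂ] z) = a x ⊗ₜ[ℂ] z := rfl

theorem tensorId_comp (a b : A →⋆ₐ[ℂ] A) (t : A ⊗[ℂ] Z) :
    tensorId Z a (tensorId Z b t) = tensorId Z (a.comp b) t := by
  induction t using TensorProduct.induction_on with
  | zero => simp
  | tmul x z => rfl
  | add x y hx hy => rw [map_add, map_add, map_add, hx, hy]

theorem tensorId_id (t : A ⊗[ℂ] Z) : tensorId Z (StarAlgHom.id ℂ A) t = t := by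
  induction t using TensorProduct.induction_on with
  | zero => simp
  | tmul x z => rfl
  | add x y hx hy => rw [map_add, hx, hy]

theorem continuous_equiv (e : B ≃⋆ₐ[ℂ] B) : Continuous e :=
  (AddMonoidHomClass.isometry_of_norm e fun x =>
    NonUnitalStarAlgHom.norm_map (e : B →⋆ₐ[ℂ] B) e.injective x).continuous

/-- two automorphisms that agree on a dense set are equal -/
theorem equiv_ext {m : A ⊗[ℂ] Z →⋆ₐ[ℂ] B} (hd : DenseRange m) {e e' : B ≃⋆ₐ[ℂ] B}
    (h : ∀ t, e (m t) = e' (m t)) : e = e' := by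
  apply StarAlgEquiv.ext
  intro x
  exact congrFun (hd.equalizer (continuous_equiv e) (continuous_equiv e') (funext h)) x

theorem exists_tensorAction {G : Type v} [Group G] (hZ : Nuclear Z) (m : A ⊗[ℂ] Z →⋆ₐ[ℂ] B)
    (hm : Function.Injective m) (hd : DenseRange m) (α : G →* (A ≃⋆ₐ[ℂ] A)) :
    ∃ γ : G →* (B ≃⋆ₐ[ℂ] B), IsTensorAction m α γ := by
  have key : ∀ g : G, ∃ e : B ≃⋆ₐ[ℂ] B, ∀ t, e (m t) = m (tensorId Z (α g : A →⋆ₐ[ℂ] A) t) := by
    intro g
    have hinv : ∀ t, tensorId Z (α g⁻¹ : A →⋆ₐ[ℂ] A) (tensorId Z (α g : A →⋆ₐ[ℂ] A) t) = t := by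
      intro t
      rw [tensorId_comp]
      have : (α g⁻¹ : A →⋆ₐ[ℂ] A).comp (α g : A →⋆ₐ[ℂ] A) = StarAlgHom.id ℂ A := by
        ext x
        change α g⁻¹ (α g x) = x
        rw [← StarAlgEquiv.mul_apply, ← map_mul, inv_mul_cancel, map_one]
        rfl
      rw [this, tensorId_id]
    have hinv' : ∀ t, tensorId Z (α g : A →⋆ₐ[ℂ] A) (tensorId Z (α g⁻¹ : A →⋆ₐ[ℂ] A) t) = t := by
      intro t
      rw [tensorId_comp]
      have : (α g : A →⋆ₐ[ℂ] A).comp (α g⁻¹ : A →⋆ₐ[ℂ] A) = StarAlgHom.id ℂ A := by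
        ext x
        change α g (α g⁻¹ x) = x
        rw [← StarAlgEquiv.mul_apply, ← map_mul, mul_inv_cancel, map_one]
        rfl
      rw [this, tensorId_id]
    refine hZ A B B m (m.comp (tensorId Z (α g : A →⋆ₐ[ℂ] A))) hm hd ?_ ?_
    · exact hm.comp (Function.LeftInverse.injective hinv)
    · have hs : Function.Surjective (tensorId Z (α g : A →⋆ₐ[ℂ] A)) :=
        Function.RightInverse.surjective hinv'
      have : Set.range (m.comp (tensorId Z (α g : A →⋆ₐ[ℂ] A))) = Set.range m := by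
        ext x
        constructor
        · rintro ⟨t, rfl⟩
          exact ⟨_, rfl⟩
        · rintro ⟨t, rfl⟩
          obtain ⟨s, rfl⟩ := hs t
          exact ⟨s, rfl⟩
      rw [DenseRange, this]
      exact hd
  choose e he using key
  refine ⟨MonoidHom.mk' e ?_, ?_⟩
  · intro g h
    refine equiv_ext hd fun t => ?_
    rw [StarAlgEquiv.mul_apply, he, he, he, tensorId_comp]
    have : (α (g * h) : A →⋆ₐ[ℂ] A) = (α g : A →⋆ₐ[ℂ] A).comp (α h : A →⋆ₐ[ℂ] A) := by
      ext x
      change α (g * h) x = α g (α h x)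
      rw [map_mul]
      rfl
    rw [this]
  · intro g a z
    change e g (m _) = _
    rw [he, tensorId_tmul]
    rfl

end P095E
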