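import Mathlib
import Vale.Agent.Lib.P095E.Stmt
import Vale.Agent.Lib.P095E.TensorAct
import Vale.Agent.Lib.P095E.Main
import Vale.Agent.Lib.P101.TransferB

/-!
# P095: the final theorem of stage 1
-/

open scoped ENNReal Topology TensorProduct
open Filter P101

namespace P095E

universe u v

theorem final {G : Type v} [Group G] [Countable G] {A Z B : Type u} [CStarAlgebra A]
    [CStarAlgebra Z] [CStarAlgebra B] [TopologicalSpace.SeparableSpace A] [Nontrivial A]
    (hZ : IsJiangSu Z) (m : A ⊗[ℂ] Z →⋆ₐ[ℂ] B) (hm : Function.Injective m) (hd : DenseRange m)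
    (hA : Nonempty (A ≃⋆ₐ[ℂ] B)) (α : G →* (A ≃⋆ₐ[ℂ] A)) (hα : LocallyFiniteOuterImage α) :
    ∃ γ : G →* (B ≃⋆ₐ[ℂ] B), IsTensorAction m α γ ∧ CocycleConjugate α γ := by
  obtain ⟨γ, hγ⟩ := exists_tensorAction hZ.nuclear m hm hd α
  refine ⟨γ, hγ, ?_⟩
  obtain ⟨e⟩ := hA
  obtain ⟨ω, hω⟩ : ∃ ω : Ultrafilter ℕ, (ω : Filter ℕ) ≤ Filter.cofinite :=
    ⟨hyperfilter ℕ, hyperfilter_le_cofinite⟩
  let i : A →⋆ₐ[ℂ] B :=
    { toFun := fun a => m (a ⊗ₜ 1)
      map_one' := map_one m
      map_mul' := fun x y => by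
        rw [← map_mul, Algebra.TensorProduct.tmul_mul_tmul, mul_one]
      map_zero' := by rw [TensorProduct.zero_tmul, map_zero]
      map_add' := fun x y => by rw [TensorProduct.add_tmul, map_add]
      commutes' := fun r => by
        rw [← AlgHomClass.commutes m r, Algebra.TensorProduct.algebraMap_apply]
      map_star' := fun x => by
        rw [← map_star, TensorProduct.star_tmul, star_one] }
  let j : Z →⋆ₐ[ℂ] B :=
    { toFun := fun z => m (1 ⊗ₜ z)
      map_one' := map_one m
      map_mul' := fun x y => by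
        rw [← map_mul, Algebra.TensorProduct.tmul_mul_tmul, mul_one]
      map_zero' := by rw [TensorProduct.tmul_zero, map_zero]
      map_add' := fun x y => by rw [TensorProduct.tmul_add, map_add]
      commutes' := fun r => by
        rw [← AlgHomClass.commutes m r, Algebra.TensorProduct.algebraMap_apply']
      map_star' := fun x => by
        rw [← map_star, TensorProduct.star_tmul, star_one] }
  have hi : ∀ x : A, i x = m (x ⊗ₜ 1) := fun x => rfl
  have hj : ∀ z : Z, j z = m (1 ⊗ₜ z) := fun z => rfl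
  have hij : ∀ (x : A) (z : Z), i x * j z = m (x ⊗ₜ z) := by
    intro x z
    rw [hi, hj, ← map_mul, Algebra.TensorProduct.tmul_mul_tmul, mul_one, one_mul]
  have hji : ∀ (x : A) (z : Z), j z * i x = m (x ⊗ₜ z) := by
    intro x z
    rw [hi, hj, ← map_mul, Algebra.TensorProduct.tmul_mul_tmul, mul_one, one_mul]
  have heq : ⇑(TensorProduct.lift
      ((LinearMap.mul ℂ B).compl₁₂ i.toAlgHom.toLinearMap j.toAlgHom.toLinearMap)) = m := by
    have : TensorProduct.lift
      ((LinearMap.mul ℂ B).compl₁₂ i.toAlgHom.toLinearMap j.toAlgHom.toLinearMap) =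
        m.toAlgHom.toLinearMap := by
      ext x z
      exact hij x z
    rw [this]
    rfl
  have := hZ.simple
  refine main ω hω ⟨hZ.separable, isLimit_of_dimDropLimit hZ.limit, approxInnerHalfFlip_of hZ.flip⟩
    hZ.infinite hZ.selfAbsorbing i j (fun a z => ?_) ?_ ?_ e α γ (fun g x => ?_) (fun g z => ?_) hα
  · rw [commute_iff_eq, hij, hji]
  · rw [heq]
    exact hm
  · rw [heq]
    exact hd
  · rw [hi, hγ, hi]
  · rw [hj, hγ, map_one]

end P095E
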