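import Vale.Agent.Lib.P095E.Defs

/-!
# P095, modules D: a strongly self-absorbing tensor factor gives a unital map into `F_ω`
-/

open scoped ENNReal Topology TensorProduct
open Filter P101

namespace P095E

universe u v

/-- `Z` is strongly self-absorbing: there is an isomorphism `e : Z ≃ Z ⊗ Z` (`C` a C*-tensor
product) approximately unitarily equivalent to `z ↦ z ⊗ 1`. -/
def SelfAbsorbing (Z : Type u) [CStarAlgebra Z] : Prop :=
  ∃ (C : Type u) (_ : CStarAlgebra C) (m : Z ⊗[ℂ] Z →⋆ₐ[ℂ] C) (e : Z ≃⋆ₐ[ℂ] C),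
    Function.Injective m ∧ DenseRange m ∧ ∀ (S : Finset Z) (ε : ℝ), 0 < ε →
      ∃ u ∈ unitary C, ∀ z ∈ S, ‖u * m (z ⊗ₜ[ℂ] 1) * star u - e z‖ < ε

/-- **Module D1a.**  Asymptotically central unital endomorphisms of `Z`: apply the definition to
`S = {z_0, …, z_n}` (`z` a dense sequence, `Z` separable) and `ε = 1/(n+1)` to get `u_n`, and put
`b_n(z) = e.symm (u_n * m (1 ⊗ z) * star u_n)`.  As `m (1 ⊗ z)` commutes with `m (z' ⊗ 1)`,
`‖b_n(z) z' - z' b_n(z)‖ = ‖e (…)‖ ≤ 2 ‖z‖ ‖e z' - u_n m(z' ⊗ 1) u_n*‖ → 0` for `z'` in the dense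
sequence, hence for all `z'` (`‖b_n(z)‖ ≤ ‖z‖`). -/
theorem exists_asymptotic_endo {Z : Type u} [CStarAlgebra Z] [TopologicalSpace.SeparableSpace Z]
    (h : SelfAbsorbing Z) :
    ∃ b : ℕ → (Z →⋆ₐ[ℂ] Z), ∀ z z' : Z,
      Tendsto (fun n => ‖b n z * z' - z' * b n z‖) atTop (𝓝 0) := by
  classical
  obtain ⟨C, _, m, e, -, -, hu⟩ := h
  have hne : Nonempty Z := ⟨0⟩
  have h1 : ∀ n : ℕ, ∃ u ∈ unitary C, ∀ k ≤ n,
      ‖u * m (TopologicalSpace.denseSeq Z k ⊗ₜ[ℂ] 1) * star u - e (TopologicalSpace.denseSeq Z k)‖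
        < 1 / ((n : ℝ) + 1) := by
    intro n
    obtain ⟨u, hu1, hu2⟩ := hu ((Finset.range (n + 1)).image (TopologicalSpace.denseSeq Z))
      (1 / ((n : ℝ) + 1)) (by positivity)
    exact ⟨u, hu1, fun k hk => hu2 _ (Finset.mem_image_of_mem _
      (Finset.mem_range.2 (Nat.lt_succ_of_le hk)))⟩
  choose u hu1 hu2 using h1
  have hsu : ∀ n, star (u n) * u n = 1 := fun n => Unitary.star_mul_self_of_mem (hu1 n)
  have hus : ∀ n, u n * star (u n) = 1 := fun n => Unitary.mul_star_self_of_mem (hu1 n)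
  let b : ℕ → (Z →⋆ₐ[ℂ] Z) := fun n =>
    { toFun := fun z => e.symm (u n * m (1 ⊗ₜ[ℂ] z) * star (u n))
      map_one' := by
        have : (1 : Z) ⊗ₜ[ℂ] (1 : Z) = 1 := rfl
        rw [this, map_one, mul_one, hus, map_one]
      map_mul' := fun x y => by
        rw [← map_mul]
        congr 1
        have h2 : (1 : Z) ⊗ₜ[ℂ] (x * y) = (1 ⊗ₜ[ℂ] x) * (1 ⊗ₜ[ℂ] y) := by
          rw [Algebra.TensorProduct.tmul_mul_tmul, one_mul]
        rw [h2, map_mul]
        calc u n * (m (1 ⊗ₜ[ℂ] x) * m (1 ⊗ₜ[ℂ] y)) * star (u n)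
            = u n * m (1 ⊗ₜ[ℂ] x) * 1 * m (1 ⊗ₜ[ℂ] y) * star (u n) := by noncomm_ring
          _ = u n * m (1 ⊗ₜ[ℂ] x) * (star (u n) * u n) * m (1 ⊗ₜ[ℂ] y) * star (u n) := by
              rw [hsu]
          _ = _ := by noncomm_ring
      map_zero' := by
        rw [TensorProduct.tmul_zero, map_zero, mul_zero, zero_mul, map_zero]
      map_add' := fun x y => by
        rw [TensorProduct.tmul_add, map_add, mul_add, add_mul, map_add]
      commutes' := fun r => by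
        have h2 : (1 : Z) ⊗ₜ[ℂ] (algebraMap ℂ Z r) = algebraMap ℂ (Z ⊗[ℂ] Z) r := by
          rw [Algebra.algebraMap_eq_smul_one, TensorProduct.tmul_smul,
            Algebra.algebraMap_eq_smul_one]
          rfl
        have h3 : m (algebraMap ℂ (Z ⊗[ℂ] Z) r) = algebraMap ℂ C r := AlgHomClass.commutes m r
        have h4 : e.symm (algebraMap ℂ C r) = algebraMap ℂ Z r := AlgHomClass.commutes e.symm r
        rw [h2, h3, ← Algebra.commutes r (u n), mul_assoc, hus, mul_one, h4]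
      map_star' := fun x => by
        rw [← map_star e.symm]
        congr 1
        have h2 : (1 : Z) ⊗ₜ[ℂ] (star x) = star (1 ⊗ₜ[ℂ] x) := by
          rw [TensorProduct.star_tmul, star_one]
        rw [h2, map_star, star_mul, star_mul, star_star, mul_assoc] }
  have hb : ∀ n z, b n z = e.symm (u n * m (1 ⊗ₜ[ℂ] z) * star (u n)) := fun _ _ => rfl
  have hbn : ∀ n z, ‖b n z‖ ≤ ‖z‖ := fun n z => NonUnitalStarAlgHom.norm_apply_le (b n) z
  have hen : ∀ z, ‖e.symm z‖ = ‖z‖ := fun z =>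
    NonUnitalStarAlgHom.norm_map (e.symm : C →⋆ₐ[ℂ] Z) e.symm.injective z
  refine ⟨b, fun z z' => ?_⟩
  -- commutators with the dense sequence
  have hk : ∀ k n, k ≤ n → ‖b n z * TopologicalSpace.denseSeq Z k -
      TopologicalSpace.denseSeq Z k * b n z‖ ≤ 2 * ‖z‖ * (1 / ((n : ℝ) + 1)) := by
    intro k n hkn
    generalize hd : TopologicalSpace.denseSeq Z k = d
    have h2 := hu2 n k hkn
    rw [hd] at h2
    obtain ⟨y, hy⟩ : ∃ y, y = e.symm (u n * m (d ⊗ₜ[ℂ] 1) * star (u n)) := ⟨_, rfl⟩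
    have h3 : ‖y - d‖ ≤ 1 / ((n : ℝ) + 1) := by
      have h4 : y - d = e.symm (u n * m (d ⊗ₜ[ℂ] 1) * star (u n) - e d) := by
        rw [map_sub, ← hy]
        congr 1
        exact (e.symm_apply_apply d).symm
      rw [h4, hen]
      exact h2.le
    have h4 : b n z * y = y * b n z := by
      have h5 : m (1 ⊗ₜ[ℂ] z) * m (d ⊗ₜ[ℂ] 1) = m (d ⊗ₜ[ℂ] 1) * m (1 ⊗ₜ[ℂ] z) := by
        rw [← map_mul, ← map_mul, Algebra.TensorProduct.tmul_mul_tmul,
          Algebra.TensorProduct.tmul_mul_tmul, one_mul, mul_one, mul_one, one_mul]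
      rw [hb, hy, ← map_mul, ← map_mul]
      congr 1
      calc u n * m (1 ⊗ₜ[ℂ] z) * star (u n) * (u n * m (d ⊗ₜ[ℂ] 1) * star (u n))
          = u n * m (1 ⊗ₜ[ℂ] z) * (star (u n) * u n) * m (d ⊗ₜ[ℂ] 1) * star (u n) := by
            noncomm_ring
        _ = u n * (m (1 ⊗ₜ[ℂ] z) * m (d ⊗ₜ[ℂ] 1)) * star (u n) := by
            rw [hsu]
            noncomm_ring
        _ = u n * (m (d ⊗ₜ[ℂ] 1) * m (1 ⊗ₜ[ℂ] z)) * star (u n) := by rw [h5]
        _ = u n * m (d ⊗ₜ[ℂ] 1) * (star (u n) * u n) * m (1 ⊗ₜ[ℂ] z) * star (u n) := by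
            rw [hsu]
            noncomm_ring
        _ = _ := by noncomm_ring
    have h5 : b n z * d - d * b n z = (y - d) * b n z - b n z * (y - d) := by
      calc b n z * d - d * b n z = b n z * d - d * b n z + (y * b n z - b n z * y) := by
            rw [h4, sub_self, add_zero]
        _ = _ := by noncomm_ring
    rw [h5]
    have h6 := hbn n z
    calc ‖(y - d) * b n z - b n z * (y - d)‖ ≤ ‖(y - d) * b n z‖ + ‖b n z * (y - d)‖ :=
          norm_sub_le _ _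
      _ ≤ ‖y - d‖ * ‖b n z‖ + ‖b n z‖ * ‖y - d‖ := add_le_add (norm_mul_le _ _) (norm_mul_le _ _)
      _ = 2 * (‖y - d‖ * ‖b n z‖) := by ring
      _ ≤ 2 * ((1 / ((n : ℝ) + 1)) * ‖z‖) := by
          refine mul_le_mul_of_nonneg_left ?_ (by norm_num)
          exact mul_le_mul h3 h6 (norm_nonneg _) (by positivity)
      _ = _ := by ring
  rw [Metric.tendsto_atTop]
  intro ε hε
  obtain ⟨δ, hδ0, hδ⟩ : ∃ δ > 0, 4 * (‖z‖ * δ) < ε := by
    refine ⟨ε / (4 * (‖z‖ + 1)), by positivity, ?_⟩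
    have h2 : 0 < ‖z‖ + 1 := by positivity
    have h3 : 4 * (‖z‖ * (ε / (4 * (‖z‖ + 1)))) = ε * (‖z‖ / (‖z‖ + 1)) := by
      field_simp
    rw [h3]
    have h4 : ‖z‖ / (‖z‖ + 1) < 1 := by
      rw [div_lt_one h2]
      linarith
    nlinarith
  obtain ⟨k, hkd⟩ := (TopologicalSpace.denseRange_denseSeq Z).exists_dist_lt z' hδ0
  obtain ⟨N, hN⟩ := exists_nat_one_div_lt hδ0
  refine ⟨max k N, fun n hn => ?_⟩
  have hkn : k ≤ n := (le_max_left _ _).trans hn
  have hNn : N ≤ n := (le_max_right _ _).trans hn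
  rw [Real.dist_0_eq_abs, abs_of_nonneg (norm_nonneg _)]
  have h2 := hk k n hkn
  have h3 : 1 / ((n : ℝ) + 1) ≤ δ := by
    refine le_trans ?_ hN.le
    refine one_div_le_one_div_of_le (by positivity) ?_
    have : (N : ℝ) ≤ n := by exact_mod_cast hNn
    linarith
  generalize TopologicalSpace.denseSeq Z k = d at *
  rw [dist_eq_norm] at hkd
  have h4 : b n z * z' - z' * b n z = (b n z * d - d * b n z) +
      (b n z * (z' - d) - (z' - d) * b n z) := by noncomm_ring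
  have h6 := hbn n z
  have h5 : ‖b n z * (z' - d) - (z' - d) * b n z‖ ≤ 2 * (‖z‖ * δ) := by
    calc _ ≤ ‖b n z * (z' - d)‖ + ‖(z' - d) * b n z‖ := norm_sub_le _ _
      _ ≤ ‖b n z‖ * ‖z' - d‖ + ‖z' - d‖ * ‖b n z‖ := add_le_add (norm_mul_le _ _) (norm_mul_le _ _)
      _ = 2 * (‖b n z‖ * ‖z' - d‖) := by ring
      _ ≤ 2 * (‖z‖ * δ) := by
          refine mul_le_mul_of_nonneg_left ?_ (by norm_num)
          exact mul_le_mul h6 hkd.le (norm_nonneg _) (norm_nonneg _)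
  rw [h4]
  have h7 : 2 * ‖z‖ * (1 / ((n : ℝ) + 1)) ≤ 2 * (‖z‖ * δ) := by
    rw [mul_assoc]
    exact mul_le_mul_of_nonneg_left (mul_le_mul_of_nonneg_left h3 (norm_nonneg _)) (by norm_num)
  have h8 := norm_add_le (b n z * d - d * b n z) (b n z * (z' - d) - (z' - d) * b n z)
  linarith

end P095E
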